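import Vale.Agent.P300.H951.Loops

/-!
# P300, group block [GT]: local lattices of a subgroup `R ⋊ H` of `E = Gam ⋊ V`
-/

namespace Vale.Agent.P300.H951

open FreeGroup SemidirectProduct

/-- The subgroup `R ⋊ H` of `E`. -/
def KK (R : Subgroup Gam) (H : Subgroup V) (hs : ∀ v ∈ H, ∀ y ∈ R, act v y ∈ R) : Subgroup E where
  carrier := {e | e.left ∈ R ∧ e.right ∈ H}
  mul_mem' := by
    rintro a b ⟨ha, ha'⟩ ⟨hb, hb'⟩
    refine ⟨?_, ?_⟩
    · rw [mul_left]
      exact mul_mem ha (hs _ ha' _ hb)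
    · rw [mul_right]
      exact mul_mem ha' hb'
  one_mem' := ⟨one_mem _, one_mem _⟩
  inv_mem' := by
    rintro a ⟨ha, ha'⟩
    refine ⟨?_, ?_⟩
    · rw [inv_left]
      exact hs _ (inv_mem ha') _ (inv_mem ha)
    · rw [inv_right]
      exact inv_mem ha'

variable {R : Subgroup Gam} {H : Subgroup V} {hs : ∀ v ∈ H, ∀ y ∈ R, act v y ∈ R}

theorem mem_KK {e : E} : e ∈ KK R H hs ↔ e.left ∈ R ∧ e.right ∈ H := Iff.rfl

/-- `R ⋊ H` is normalised by the elements lying over a subgroup that normalises `H` and `R`. -/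
theorem KK_conj [R.Normal] (ht : ∀ v ∈ H, ∀ y, act v y * y⁻¹ ∈ R) {e k : E}
    (he : ∀ y ∈ R, act e.right y ∈ R) (he' : ∀ v ∈ H, e.right * v * e.right⁻¹ ∈ H)
    (hk : k ∈ KK R H hs) : e * k * e⁻¹ ∈ KK R H hs := by
  obtain ⟨hk1, hk2⟩ := hk
  have h2 : (e * k * e⁻¹).right = e.right * k.right * e.right⁻¹ := by
    simp only [mul_right, inv_right]
  refine ⟨?_, by rw [h2]; exact he' _ hk2⟩
  have h1 : (e * k * e⁻¹).left = e.left * act e.right k.left *
      (act (e.right * k.right * e.right⁻¹) e.left)⁻¹ := by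
    simp only [mul_left, mul_right, inv_left, _root_.map_mul, _root_.map_inv, MulAut.mul_apply]
  rw [h1]
  have h3 := ht _ (he' _ hk2) e.left
  set z := act (e.right * k.right * e.right⁻¹) e.left
  have h4 : e.left * act e.right k.left * z⁻¹ =
      (e.left * act e.right k.left * e.left⁻¹) * (z * e.left⁻¹)⁻¹ := by group
  rw [h4]
  exact mul_mem (Subgroup.Normal.conj_mem inferInstance _ (he _ hk1) _) (inv_mem h3)

theorem KK_conj_inl [R.Normal] (ht : ∀ v ∈ H, ∀ y, act v y * y⁻¹ ∈ R) (γ : Gam) {k : E}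
    (hk : k ∈ KK R H hs) : inl γ * k * (inl γ)⁻¹ ∈ KK R H hs := by
  apply KK_conj ht _ _ hk
  · intro y hy
    simpa using hy
  · intro v hv
    simpa using hv

theorem KK_conj_iff [R.Normal] (ht : ∀ v ∈ H, ∀ y, act v y * y⁻¹ ∈ R) (e k : E) :
    e * k * e⁻¹ ∈ KK R H hs ↔ inr e.right * k * (inr e.right)⁻¹ ∈ KK R H hs := by
  have h : e = inl e.left * inr e.right := (inl_left_mul_inr_right e).symm
  constructor
  · intro h1
    have h2 := KK_conj_inl ht (e.left)⁻¹ h1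
    have h3 : inl (e.left)⁻¹ * (e * k * e⁻¹) * (inl (e.left)⁻¹)⁻¹ =
        inr e.right * k * (inr e.right)⁻¹ := by
      have h4 : e * k * e⁻¹ = (inl e.left * inr e.right) * k * (inl e.left * inr e.right)⁻¹ := by
        rw [← h]
      rw [h4, _root_.map_inv]
      group
    rwa [h3] at h2
  · intro h1
    have h2 := KK_conj_inl ht e.left h1
    have h3 : inl e.left * (inr e.right * k * (inr e.right)⁻¹) * (inl e.left)⁻¹ =
        e * k * e⁻¹ := by
      have h4 : e * k * e⁻¹ = (inl e.left * inr e.right) * k * (inl e.left * inr e.right)⁻¹ := by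
        rw [← h]
      rw [h4]
      group
    rwa [h3] at h2

theorem conj_mem_iff (g : V) (y : Gam) (t : V) :
    (inr g : E) * (inl y * inr t) * (inr g)⁻¹ ∈ KK R H hs ↔ act g y ∈ R ∧ g * t * g⁻¹ ∈ H := by
  rw [mem_KK]
  simp only [mul_left, mul_right, inv_left, inv_right, left_inr, right_inr, left_inl, right_inl,
    _root_.map_one, one_mul, mul_one, inv_one]

theorem commute_xx (s : Fin 3) : Commute (inl (xx s) : E) (inr (Ts s)) := by
  have h : (inr (Ts s) : E) * inl (xx s) * (inr (Ts s))⁻¹ = inl (act (Ts s) (xx s)) := by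
    rw [inl_aut, _root_.map_inv]
  rw [act_xx] at h
  exact (mul_inv_eq_iff_eq_mul.mp h).symm

theorem tt_zpow (s : Fin 3) (k : ℤ) : tt s ^ k = inl (xx s ^ k) * inr (Ts s ^ k) := by
  rw [tt, (commute_xx s).mul_zpow, map_zpow, map_zpow]

/-- Conjugation by `t''`. -/
theorem tt_conj (s : Fin 3) (y : Gam) :
    tt s * inl y * (tt s)⁻¹ = inl (xx s * act (Ts s) y * (xx s)⁻¹) := by
  have h : (inr (Ts s) : E) * inl y * (inr (Ts s))⁻¹ = inl (act (Ts s) y) := by
    rw [inl_aut, _root_.map_inv]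
  rw [_root_.map_mul, _root_.map_mul, _root_.map_inv, ← h, tt]
  group

theorem commute_dl (s : Fin 3) : Commute (inl (dl s) : E) (tt s) := by
  have h := tt_conj s (dl s)
  rw [theta_dl] at h
  exact (mul_inv_eq_iff_eq_mul.mp h).symm

theorem tp_zpow (s : Fin 3) (k : ℤ) : tp s ^ k = inl (dl s ^ (-k)) * tt s ^ k := by
  have h : Commute (inl (dl s)⁻¹ : E) (tt s) := by
    rw [_root_.map_inv]
    exact (commute_dl s).inv_left
  rw [tp, h.mul_zpow, ← map_zpow, inv_zpow, zpow_neg]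

theorem c_tt (s : Fin 3) (c : Gam) (i j : ℤ) :
    (inl c : E) ^ i * tt s ^ j = inl (c ^ i * xx s ^ j) * inr (Ts s ^ j) := by
  rw [tt_zpow, ← map_zpow, _root_.map_mul, mul_assoc]

theorem c_tp (s : Fin 3) (c : Gam) (i j : ℤ) :
    (inl c : E) ^ i * tp s ^ j = inl (c ^ i * dl s ^ (-j) * xx s ^ j) * inr (Ts s ^ j) := by
  rw [tp_zpow, tt_zpow, ← map_zpow, _root_.map_mul, _root_.map_mul, mul_assoc, mul_assoc]

theorem tp_tt (s : Fin 3) (i j : ℤ) :
    tp s ^ i * tt s ^ j = inl (dl s ^ (-i) * xx s ^ (i + j)) * inr (Ts s ^ (i + j)) := by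
  rw [tp_zpow, mul_assoc, ← zpow_add, tt_zpow, _root_.map_mul, mul_assoc]

section lattice

variable [R.Normal] (ht : ∀ v ∈ H, ∀ y, act v y * y⁻¹ ∈ R) {s : Fin 3} {o M : ℕ} (e : E)
  (h1 : ∀ k : ℤ, e.right * Ts s ^ k * e.right⁻¹ ∈ H ↔ (o : ℤ) ∣ k)
  (h3 : xx s ^ o ∈ R)

include ht h1 h3

/-- Local lattice at the crossing of a section and the second component. -/
theorem lat_c_tt {c : Gam} (h4 : ∀ k : ℤ, act e.right c ^ k ∈ R ↔ (M : ℤ) ∣ k) (i j : ℤ) :
    e * ((inl c : E) ^ i * tt s ^ j) * e⁻¹ ∈ KK R H hs ↔ (M : ℤ) ∣ i ∧ (o : ℤ) ∣ j := by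
  rw [KK_conj_iff ht, c_tt, conj_mem_iff, h1, _root_.map_mul, map_zpow, map_zpow, act_xx,
    and_congr_left_iff.mpr]
  rintro ⟨l, rfl⟩
  have h5 : xx s ^ ((o : ℤ) * l) ∈ R := by
    rw [zpow_mul, zpow_natCast]
    exact zpow_mem h3 l
  rw [Subgroup.mul_mem_cancel_right _ h5, h4]

/-- Local lattice at the crossing of a section and the first component. -/
theorem lat_c_tp (h2 : ∀ k : ℤ, act e.right (dl s) ^ k ∈ R ↔ (o : ℤ) ∣ k)
    {c : Gam} (h4 : ∀ k : ℤ, act e.right c ^ k ∈ R ↔ (M : ℤ) ∣ k) (i j : ℤ) :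
    e * ((inl c : E) ^ i * tp s ^ j) * e⁻¹ ∈ KK R H hs ↔ (M : ℤ) ∣ i ∧ (o : ℤ) ∣ j := by
  rw [KK_conj_iff ht, c_tp, conj_mem_iff, h1, _root_.map_mul, _root_.map_mul, map_zpow, map_zpow,
    map_zpow, act_xx, and_congr_left_iff.mpr]
  rintro ⟨l, rfl⟩
  have h5 : xx s ^ ((o : ℤ) * l) ∈ R := by
    rw [zpow_mul, zpow_natCast]
    exact zpow_mem h3 l
  have h6 : act e.right (dl s) ^ (-((o : ℤ) * l)) ∈ R := (h2 _).mpr (dvd_neg.mpr ⟨l, rfl⟩)
  rw [Subgroup.mul_mem_cancel_right _ h5, Subgroup.mul_mem_cancel_right _ h6, h4]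

/-- Local lattice at the node. -/
theorem lat_tp_tt (h2 : ∀ k : ℤ, act e.right (dl s) ^ k ∈ R ↔ (o : ℤ) ∣ k) (i j : ℤ) :
    e * (tp s ^ i * tt s ^ j) * e⁻¹ ∈ KK R H hs ↔ (o : ℤ) ∣ i ∧ (o : ℤ) ∣ j := by
  have hij : ((o : ℤ) ∣ i ∧ (o : ℤ) ∣ j) ↔ ((o : ℤ) ∣ -i ∧ (o : ℤ) ∣ i + j) := by
    constructor
    · rintro ⟨hi, hj⟩
      exact ⟨dvd_neg.mpr hi, dvd_add hi hj⟩
    · rintro ⟨hi, hj⟩
      have hi' := dvd_neg.mp hi
      exact ⟨hi', (dvd_add_right hi').mp hj⟩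
  rw [KK_conj_iff ht, tp_tt, conj_mem_iff, h1, _root_.map_mul, map_zpow,
    map_zpow, act_xx, hij, and_congr_left_iff.mpr]
  rintro ⟨l, hl⟩
  have h5 : xx s ^ (i + j) ∈ R := by
    rw [hl, zpow_mul, zpow_natCast]
    exact zpow_mem h3 l
  rw [Subgroup.mul_mem_cancel_right _ h5, h2]

end lattice

/-- `Ts s ^ k` acts trivially modulo a normal subgroup containing `xx s ^ k` and `dl s ^ k`. -/
theorem triv_of_mem [R.Normal] (s : Fin 3) (k : ℤ) (hx : xx s ^ k ∈ R) (hd : dl s ^ k ∈ R)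
    (y : Gam) : act (Ts s ^ k) y * y⁻¹ ∈ R := by
  -- the automorphism `θ = conj (xx s) ∘ act (Ts s)`
  let θ : MulAut Gam := MulAut.conj (xx s) * act (Ts s)
  have hθ : ∀ y, θ y = xx s * act (Ts s) y * (xx s)⁻¹ := fun y => rfl
  have hcomm : Commute (MulAut.conj (xx s)) (act (Ts s)) := by
    apply MulEquiv.ext
    intro y
    show xx s * act (Ts s) y * (xx s)⁻¹ = act (Ts s) (xx s * y * (xx s)⁻¹)
    rw [_root_.map_mul, _root_.map_mul, _root_.map_inv, act_xx]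
  have hθk : θ ^ k = MulAut.conj (xx s ^ k) * act (Ts s ^ k) := by
    rw [hcomm.mul_zpow, map_zpow, map_zpow]
  have hdl : ∀ j : ℤ, (θ ^ j) (dl s) = dl s := by
    have h : θ ∈ MulAction.stabilizer (MulAut Gam) (dl s) := theta_dl s
    intro j
    exact zpow_mem h j
  have hside : ∀ z, θ z = dl s * z * (dl s)⁻¹ → ∀ j : ℤ,
      (θ ^ j) z = dl s ^ j * z * (dl s ^ j)⁻¹ := by
    intro z hz j
    have hz' : θ⁻¹ z = (dl s)⁻¹ * z * dl s := by
      have h : θ ((dl s)⁻¹ * z * dl s) = z := by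
        rw [_root_.map_mul, _root_.map_mul, _root_.map_inv, hz]
        have := hdl 1
        rw [zpow_one] at this
        rw [this]
        group
      rw [← h]
      rw [MulAut.inv_apply_self]
      rw [h]
    induction j using Int.induction_on with
    | zero => simp
    | succ n ih =>
      rw [zpow_add_one, MulAut.mul_apply, hz, _root_.map_mul, _root_.map_mul, _root_.map_inv, hdl,
        ih]
      group
    | pred n ih =>
      rw [zpow_sub_one, MulAut.mul_apply, hz', _root_.map_mul, _root_.map_mul, _root_.map_inv, hdl,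
        ih]
      group
  have hfix : ∀ z, θ z = z → ∀ j : ℤ, (θ ^ j) z = z := by
    intro z hz j
    have h : θ ∈ MulAction.stabilizer (MulAut Gam) z := hz
    exact zpow_mem h j
  have hgen : ∀ z ∈ Subgroup.closure ({sa s, sb s, sc s} : Set Gam), (θ ^ k) z * z⁻¹ ∈ R := by
    intro z hz
    induction hz using Subgroup.closure_induction with
    | mem z hz =>
      rcases hz with rfl | rfl | rfl
      · rw [hside _ (theta_sa s) k]
        have h : dl s ^ k * sa s * (dl s ^ k)⁻¹ * (sa s)⁻¹ =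
          dl s ^ k * (sa s * (dl s ^ k)⁻¹ * (sa s)⁻¹) := by group
        rw [h]
        exact mul_mem hd (Subgroup.Normal.conj_mem inferInstance _ (inv_mem hd) _)
      · rw [hside _ (theta_sb s) k]
        have h : dl s ^ k * sb s * (dl s ^ k)⁻¹ * (sb s)⁻¹ =
          dl s ^ k * (sb s * (dl s ^ k)⁻¹ * (sb s)⁻¹) := by group
        rw [h]
        exact mul_mem hd (Subgroup.Normal.conj_mem inferInstance _ (inv_mem hd) _)
      · rw [hfix _ (theta_sc s) k, mul_inv_cancel]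
        exact one_mem _
    | one => simp
    | mul a b _ _ iha ihb =>
      have h : (θ ^ k) (a * b) * (a * b)⁻¹ =
          ((θ ^ k) a * ((θ ^ k) b * b⁻¹) * ((θ ^ k) a)⁻¹) * ((θ ^ k) a * a⁻¹) := by
        rw [_root_.map_mul]; group
      rw [h]
      exact mul_mem (Subgroup.Normal.conj_mem inferInstance _ ihb _) iha
    | inv a _ iha =>
      have h : (θ ^ k) a⁻¹ * (a⁻¹)⁻¹ =
          ((θ ^ k) a)⁻¹ * ((θ ^ k) a * a⁻¹)⁻¹ * (((θ ^ k) a)⁻¹)⁻¹ := by
        rw [_root_.map_inv]; group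
      rw [h]
      exact Subgroup.Normal.conj_mem inferInstance _ (inv_mem iha) _
  have h1 : (θ ^ k) y * y⁻¹ ∈ R := hgen y (by rw [closure_side]; trivial)
  have h2 : (θ ^ k) y = xx s ^ k * act (Ts s ^ k) y * (xx s ^ k)⁻¹ := by
    rw [hθk]; rfl
  rw [h2] at h1
  have h3 : act (Ts s ^ k) y * y⁻¹ = (xx s ^ k)⁻¹ *
      (xx s ^ k * act (Ts s ^ k) y * (xx s ^ k)⁻¹ * y⁻¹) * (y * xx s ^ k * y⁻¹) := by group
  rw [h3]
  exact mul_mem (mul_mem (inv_mem hx) h1) (Subgroup.Normal.conj_mem inferInstance _ hx _)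

end Vale.Agent.P300.H951
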