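import Vale.Agent.P300.H951.Base

/-!
# P300, group block [GT]: the loops around the boundary divisors of `M_{0,5}`-bar

For the three singular fibres `s = 0, 1, 2` (over `0`, `1`, `∞`): `dl s` is the loop round the node,
`sa s, sb s` are the punctures on one side, `sc s, c4` those on the other side, `tt s` (= `t''`)
commutes with `sc s, c4`, and `tp s = (dl s)⁻¹ * tt s` (= `t'`) commutes with `sa s, sb s`.
-/

namespace Vale.Agent.P300.H951

open FreeGroup SemidirectProduct

/-- `π₁(M_{0,5})`. -/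
abbrev E := Gam ⋊[act] V

/-- The product of the first three loops. -/
def PP : Gam := c1 * c2 * c3

/-- Loop around the fourth puncture. -/
def c4 : Gam := (c1 * c2 * c3)⁻¹

/-- Loop round the node of the fibre `s`. -/
def dl : Fin 3 → Gam := ![c1 * c2, c2 * c3, c1 * c3]

/-- The fibre part of `t''`. -/
def xx : Fin 3 → Gam := ![1, 1, PP]

/-- The inverse loop around `∞` in the base. -/
def T01 : V := of 0 * of 1

/-- The base part of `t''`. -/
def Ts : Fin 3 → V := ![of 0, of 1, T01⁻¹]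

/-- The first puncture on the first side. -/
def sa : Fin 3 → Gam := ![c1, c2, c1]

/-- The second puncture on the first side. -/
def sb : Fin 3 → Gam := ![c2, c3, c3]

/-- The first puncture on the second side. -/
def sc : Fin 3 → Gam := ![c3, c1, c1 * c2 * c1⁻¹]

/-- The loop `t''` around the second component of the singular fibre `s`. -/
def tt (s : Fin 3) : E := inl (xx s) * inr (Ts s)

/-- The loop `t'` around the first component of the singular fibre `s`. -/
def tp (s : Fin 3) : E := inl (dl s)⁻¹ * tt s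

theorem act01_c1 : act T01 c1 = (c1 * c2) * c1 * (c1 * c2)⁻¹ := by
  rw [T01, _root_.map_mul, act_0, act_1, MulAut.mul_apply, T1_c1, T0_c1]

theorem act01_c2 : act T01 c2 = ((c1 * c2) * c2 * (c1 * c2)⁻¹ * c3) *
    ((c1 * c2) * c2 * (c1 * c2)⁻¹) * ((c1 * c2) * c2 * (c1 * c2)⁻¹ * c3)⁻¹ := by
  rw [T01, _root_.map_mul, act_0, act_1, MulAut.mul_apply, T1_c2]
  simp only [_root_.map_mul, _root_.map_inv, T0_c2, T0_c3]

theorem act01_c3 : act T01 c3 = ((c1 * c2) * c2 * (c1 * c2)⁻¹ * c3) *
    c3 * ((c1 * c2) * c2 * (c1 * c2)⁻¹ * c3)⁻¹ := by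
  rw [T01, _root_.map_mul, act_0, act_1, MulAut.mul_apply, T1_c3]
  simp only [_root_.map_mul, _root_.map_inv, T0_c2, T0_c3]

theorem act01_symm {y z : Gam} (h : act T01 z = y) : act T01⁻¹ y = z := by
  rw [← h, _root_.map_inv]
  exact (act T01).symm_apply_apply z

theorem act01_PP : act T01 PP = PP := by
  simp only [PP, _root_.map_mul, act01_c1, act01_c2, act01_c3]
  group

/-- `t''` conjugates the first side by `dl`. -/
theorem theta_sa (s : Fin 3) :
    xx s * act (Ts s) (sa s) * (xx s)⁻¹ = dl s * sa s * (dl s)⁻¹ := by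
  fin_cases s
  · show 1 * act (of 0) c1 * 1⁻¹ = (c1 * c2) * c1 * (c1 * c2)⁻¹
    rw [act_0, T0_c1]; group
  · show 1 * act (of 1) c2 * 1⁻¹ = (c2 * c3) * c2 * (c2 * c3)⁻¹
    rw [act_1, T1_c2]; group
  · show PP * act T01⁻¹ c1 * PP⁻¹ = (c1 * c3) * c1 * (c1 * c3)⁻¹
    rw [act01_symm (z := PP⁻¹ * (c1 * c3) * c1 * (c1 * c3)⁻¹ * PP)]
    · group
    · simp only [_root_.map_mul, _root_.map_inv, act01_PP, act01_c1, act01_c3]
      simp only [PP]
      group

theorem theta_sb (s : Fin 3) :
    xx s * act (Ts s) (sb s) * (xx s)⁻¹ = dl s * sb s * (dl s)⁻¹ := by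
  fin_cases s
  · show 1 * act (of 0) c2 * 1⁻¹ = (c1 * c2) * c2 * (c1 * c2)⁻¹
    rw [act_0, T0_c2]; group
  · show 1 * act (of 1) c3 * 1⁻¹ = (c2 * c3) * c3 * (c2 * c3)⁻¹
    rw [act_1, T1_c3]; group
  · show PP * act T01⁻¹ c3 * PP⁻¹ = (c1 * c3) * c3 * (c1 * c3)⁻¹
    rw [act01_symm (z := PP⁻¹ * (c1 * c3) * c3 * (c1 * c3)⁻¹ * PP)]
    · group
    · simp only [_root_.map_mul, _root_.map_inv, act01_PP, act01_c1, act01_c3]
      simp only [PP]
      group

/-- `t''` fixes the second side. -/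
theorem theta_sc (s : Fin 3) :
    xx s * act (Ts s) (sc s) * (xx s)⁻¹ = sc s := by
  fin_cases s
  · show 1 * act (of 0) c3 * 1⁻¹ = c3
    rw [act_0, T0_c3]; group
  · show 1 * act (of 1) c1 * 1⁻¹ = c1
    rw [act_1, T1_c1]; group
  · show PP * act T01⁻¹ (c1 * c2 * c1⁻¹) * PP⁻¹ = c1 * c2 * c1⁻¹
    rw [act01_symm (z := PP⁻¹ * (c1 * c2 * c1⁻¹) * PP)]
    · group
    · simp only [_root_.map_mul, _root_.map_inv, act01_PP, act01_c1, act01_c2]
      simp only [PP]
      group

/-- The product of the three loops is fixed by all of `V`. -/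
theorem act_PP (v : V) : act v PP = PP := by
  have h0 : T0 PP = PP := by
    simp only [PP, _root_.map_mul, T0_c1, T0_c2, T0_c3]
    group
  have h1 : T1 PP = PP := by
    simp only [PP, _root_.map_mul, T1_c1, T1_c2, T1_c3]
    group
  have h : act v ∈ (MulAction.stabilizer (MulAut Gam) PP) := by
    have h2 : act.range ≤ MulAction.stabilizer (MulAut Gam) PP := by
      rw [MonoidHom.range_eq_map, ← FreeGroup.closure_range_of, MonoidHom.map_closure,
        Subgroup.closure_le]
      rintro _ ⟨_, ⟨i, rfl⟩, rfl⟩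
      fin_cases i
      · show act (of 0) • PP = PP
        rw [act_0]; exact h0
      · show act (of 1) • PP = PP
        rw [act_1]; exact h1
    exact h2 ⟨v, rfl⟩
  exact h

theorem c4_eq : c4 = PP⁻¹ := rfl

theorem act_c4 (v : V) : act v c4 = c4 := by
  rw [c4_eq, _root_.map_inv, act_PP]

theorem act_xx (v : V) (s : Fin 3) : act v (xx s) = xx s := by
  fin_cases s
  · exact _root_.map_one _
  · exact _root_.map_one _
  · exact act_PP v

theorem dl_eq (s : Fin 3) : dl s = sa s * sb s := by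
  fin_cases s <;> rfl

theorem theta_dl (s : Fin 3) : xx s * act (Ts s) (dl s) * (xx s)⁻¹ = dl s := by
  have h : xx s * act (Ts s) (dl s) * (xx s)⁻¹ =
      (xx s * act (Ts s) (sa s) * (xx s)⁻¹) * (xx s * act (Ts s) (sb s) * (xx s)⁻¹) := by
    rw [dl_eq, _root_.map_mul]; group
  rw [h, theta_sa, theta_sb]
  nth_rewrite 5 [dl_eq]
  rw [dl_eq]
  group

theorem closure_side (s : Fin 3) : Subgroup.closure ({sa s, sb s, sc s} : Set Gam) = ⊤ := by
  rw [eq_top_iff, ← closure_c, Subgroup.closure_le]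
  have ha : sa s ∈ Subgroup.closure ({sa s, sb s, sc s} : Set Gam) :=
    Subgroup.subset_closure (Or.inl rfl)
  have hb : sb s ∈ Subgroup.closure ({sa s, sb s, sc s} : Set Gam) :=
    Subgroup.subset_closure (Or.inr (Or.inl rfl))
  have hc : sc s ∈ Subgroup.closure ({sa s, sb s, sc s} : Set Gam) :=
    Subgroup.subset_closure (Or.inr (Or.inr rfl))
  rintro y hy
  fin_cases s
  · rcases hy with rfl | rfl | rfl
    · exact ha
    · exact hb
    · exact hc
  · rcases hy with rfl | rfl | rfl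
    · exact hc
    · exact ha
    · exact hb
  · rcases hy with rfl | rfl | rfl
    · exact ha
    · have h : c2 = (c1)⁻¹ * (c1 * c2 * c1⁻¹) * c1 := by group
      rw [h]
      exact mul_mem (mul_mem (inv_mem ha) hc) ha
    · exact hb

end Vale.Agent.P300.H951
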