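import Mathlib

/-!
# P300, group block [GT]: the group `E = π₁(M_{0,5}) = Gam ⋊ V` and its local lattices

`Gam` is free on `c1, c2, c3` (`c4 = (c1 c2 c3)⁻¹`), `V` is free on `T0, T1`;
`T0` conjugates `c1, c2` by `dl0 = c1 c2` and fixes `c3`; `T1` conjugates `c2, c3` by
`dl1 = c2 c3` and fixes `c1`.
-/

namespace Vale.Agent.P300.H951

open FreeGroup

/-- The fundamental group of the fibre (four times punctured sphere). -/
abbrev Gam := FreeGroup (Fin 3)

/-- The fundamental group of the base (three times punctured sphere). -/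
abbrev V := FreeGroup (Fin 2)

/-- Loop around the first puncture. -/
def c1 : Gam := of 0

/-- Loop around the second puncture. -/
def c2 : Gam := of 1

/-- Loop around the third puncture. -/
def c3 : Gam := of 2

/-- The twist about `c1 c2`, as an endomorphism. -/
def T0hom : Gam →* Gam :=
  lift ![(c1 * c2) * c1 * (c1 * c2)⁻¹, (c1 * c2) * c2 * (c1 * c2)⁻¹, c3]

/-- The inverse twist about `c1 c2`, as an endomorphism. -/
def T0inv : Gam →* Gam :=
  lift ![(c1 * c2)⁻¹ * c1 * (c1 * c2), (c1 * c2)⁻¹ * c2 * (c1 * c2), c3]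

/-- The twist about `c2 c3`, as an endomorphism. -/
def T1hom : Gam →* Gam :=
  lift ![c1, (c2 * c3) * c2 * (c2 * c3)⁻¹, (c2 * c3) * c3 * (c2 * c3)⁻¹]

/-- The inverse twist about `c2 c3`, as an endomorphism. -/
def T1inv : Gam →* Gam :=
  lift ![c1, (c2 * c3)⁻¹ * c2 * (c2 * c3), (c2 * c3)⁻¹ * c3 * (c2 * c3)]

theorem T0hom_c1 : T0hom c1 = (c1 * c2) * c1 * (c1 * c2)⁻¹ := by simp [T0hom, c1]

theorem T0hom_c2 : T0hom c2 = (c1 * c2) * c2 * (c1 * c2)⁻¹ := by
  show (lift _) (of 1) = _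
  rw [lift_apply_of]; rfl

theorem T0hom_c3 : T0hom c3 = c3 := by
  show (lift _) (of 2) = _
  rw [lift_apply_of]; rfl

theorem T0inv_c1 : T0inv c1 = (c1 * c2)⁻¹ * c1 * (c1 * c2) := by
  show (lift _) (of 0) = _
  rw [lift_apply_of]; rfl

theorem T0inv_c2 : T0inv c2 = (c1 * c2)⁻¹ * c2 * (c1 * c2) := by
  show (lift _) (of 1) = _
  rw [lift_apply_of]; rfl

theorem T0inv_c3 : T0inv c3 = c3 := by
  show (lift _) (of 2) = _
  rw [lift_apply_of]; rfl

theorem T1hom_c1 : T1hom c1 = c1 := by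
  show (lift _) (of 0) = _
  rw [lift_apply_of]; rfl

theorem T1hom_c2 : T1hom c2 = (c2 * c3) * c2 * (c2 * c3)⁻¹ := by
  show (lift _) (of 1) = _
  rw [lift_apply_of]; rfl

theorem T1hom_c3 : T1hom c3 = (c2 * c3) * c3 * (c2 * c3)⁻¹ := by
  show (lift _) (of 2) = _
  rw [lift_apply_of]; rfl

theorem T1inv_c1 : T1inv c1 = c1 := by
  show (lift _) (of 0) = _
  rw [lift_apply_of]; rfl

theorem T1inv_c2 : T1inv c2 = (c2 * c3)⁻¹ * c2 * (c2 * c3) := by
  show (lift _) (of 1) = _
  rw [lift_apply_of]; rfl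

theorem T1inv_c3 : T1inv c3 = (c2 * c3)⁻¹ * c3 * (c2 * c3) := by
  show (lift _) (of 2) = _
  rw [lift_apply_of]; rfl

/-- Homomorphisms out of `Gam` agree if they agree on `c1, c2, c3`. -/
theorem hom_ext {G : Type*} [Monoid G] {f g : Gam →* G} (h1 : f c1 = g c1) (h2 : f c2 = g c2)
    (h3 : f c3 = g c3) : f = g := by
  apply FreeGroup.ext_hom
  intro i
  fin_cases i
  · exact h1
  · exact h2
  · exact h3

theorem T0inv_T0 : T0inv.comp T0hom = MonoidHom.id Gam := by
  apply hom_ext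
  · simp only [MonoidHom.comp_apply, T0hom_c1, _root_.map_mul, _root_.map_inv, T0inv_c1, T0inv_c2,
      MonoidHom.id_apply]
    group
  · simp only [MonoidHom.comp_apply, T0hom_c2, _root_.map_mul, _root_.map_inv, T0inv_c1, T0inv_c2,
      MonoidHom.id_apply]
    group
  · simp only [MonoidHom.comp_apply, T0hom_c3, T0inv_c3, MonoidHom.id_apply]

theorem T0_T0inv : T0hom.comp T0inv = MonoidHom.id Gam := by
  apply hom_ext
  · simp only [MonoidHom.comp_apply, T0inv_c1, _root_.map_mul, _root_.map_inv, T0hom_c1, T0hom_c2,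
      MonoidHom.id_apply]
    group
  · simp only [MonoidHom.comp_apply, T0inv_c2, _root_.map_mul, _root_.map_inv, T0hom_c1, T0hom_c2,
      MonoidHom.id_apply]
    group
  · simp only [MonoidHom.comp_apply, T0hom_c3, T0inv_c3, MonoidHom.id_apply]

theorem T1inv_T1 : T1inv.comp T1hom = MonoidHom.id Gam := by
  apply hom_ext
  · simp only [MonoidHom.comp_apply, T1hom_c1, T1inv_c1, MonoidHom.id_apply]
  · simp only [MonoidHom.comp_apply, T1hom_c2, _root_.map_mul, _root_.map_inv, T1inv_c3, T1inv_c2,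
      MonoidHom.id_apply]
    group
  · simp only [MonoidHom.comp_apply, T1hom_c3, _root_.map_mul, _root_.map_inv, T1inv_c3, T1inv_c2,
      MonoidHom.id_apply]
    group

theorem T1_T1inv : T1hom.comp T1inv = MonoidHom.id Gam := by
  apply hom_ext
  · simp only [MonoidHom.comp_apply, T1hom_c1, T1inv_c1, MonoidHom.id_apply]
  · simp only [MonoidHom.comp_apply, T1inv_c2, _root_.map_mul, _root_.map_inv, T1hom_c3, T1hom_c2,
      MonoidHom.id_apply]
    group
  · simp only [MonoidHom.comp_apply, T1inv_c3, _root_.map_mul, _root_.map_inv, T1hom_c3, T1hom_c2,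
      MonoidHom.id_apply]
    group

/-- The twist about `c1 c2`. -/
def T0 : MulAut Gam := T0hom.toMulEquiv T0inv T0inv_T0 T0_T0inv

/-- The twist about `c2 c3`. -/
def T1 : MulAut Gam := T1hom.toMulEquiv T1inv T1inv_T1 T1_T1inv

/-- The action of `V` on `Gam`. -/
def act : V →* MulAut Gam := lift ![T0, T1]

theorem act_0 : act (of 0) = T0 := by
  rw [act, lift_apply_of]; rfl

theorem act_1 : act (of 1) = T1 := by
  rw [act, lift_apply_of]; rfl

theorem T0_c1 : T0 c1 = (c1 * c2) * c1 * (c1 * c2)⁻¹ := T0hom_c1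
theorem T0_c2 : T0 c2 = (c1 * c2) * c2 * (c1 * c2)⁻¹ := T0hom_c2
theorem T0_c3 : T0 c3 = c3 := T0hom_c3
theorem T1_c1 : T1 c1 = c1 := T1hom_c1
theorem T1_c2 : T1 c2 = (c2 * c3) * c2 * (c2 * c3)⁻¹ := T1hom_c2
theorem T1_c3 : T1 c3 = (c2 * c3) * c3 * (c2 * c3)⁻¹ := T1hom_c3

theorem closure_c : Subgroup.closure ({c1, c2, c3} : Set Gam) = ⊤ := by
  rw [eq_top_iff, ← FreeGroup.closure_range_of, Subgroup.closure_le]
  rintro _ ⟨i, rfl⟩
  apply Subgroup.subset_closure
  fin_cases i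
  · exact Or.inl rfl
  · exact Or.inr (Or.inl rfl)
  · exact Or.inr (Or.inr rfl)

end Vale.Agent.P300.H951
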