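import Vale.Agent.P300.H951.Local

/-!
# P300, group block [GT]: the classes modulo `m`, the subgroups `H`, finite index
-/

namespace Vale.Agent.P300.H951

open FreeGroup SemidirectProduct

/-- The class in `(ℤ/m)²`. -/
def cl (m : ℕ) : Gam →* Multiplicative (ZMod m × ZMod m) :=
  FreeGroup.lift ![Multiplicative.ofAdd (1, 0), Multiplicative.ofAdd (-1, 0), Multiplicative.ofAdd (0, 1)]

/-- The character of `V`: `T0 ↦ 0`, `T1 ↦ 1`. -/
def chi (m : ℕ) : V →* Multiplicative (ZMod m) :=
  FreeGroup.lift ![Multiplicative.ofAdd 0, Multiplicative.ofAdd 1]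

theorem cl_c1 (m : ℕ) : cl m c1 = Multiplicative.ofAdd (1, 0) := by
  show (FreeGroup.lift _) (of 0) = _
  rw [lift_apply_of]; rfl

theorem cl_c2 (m : ℕ) : cl m c2 = Multiplicative.ofAdd (-1, 0) := by
  show (FreeGroup.lift _) (of 1) = _
  rw [lift_apply_of]; rfl

theorem cl_c3 (m : ℕ) : cl m c3 = Multiplicative.ofAdd (0, 1) := by
  show (FreeGroup.lift _) (of 2) = _
  rw [lift_apply_of]; rfl

theorem chi_0 (m : ℕ) : chi m (of 0) = 1 := by
  rw [chi, lift_apply_of]; rfl

theorem chi_1 (m : ℕ) : chi m (of 1) = Multiplicative.ofAdd 1 := by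
  rw [chi, lift_apply_of]; rfl

theorem cl_act (m : ℕ) (v : V) (y : Gam) : cl m (act v y) = cl m y := by
  let S : Subgroup V :=
    { carrier := {v | ∀ y, cl m (act v y) = cl m y}
      mul_mem' := by
        intro a b ha hb y
        rw [_root_.map_mul, MulAut.mul_apply, ha, hb]
      one_mem' := by
        intro y
        rw [_root_.map_one, MulAut.one_apply]
      inv_mem' := by
        intro a ha y
        rw [← ha, ← MulAut.mul_apply, ← _root_.map_mul, mul_inv_cancel, _root_.map_one,
          MulAut.one_apply] }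
  have hconj : ∀ a b : Gam, cl m (a * b * a⁻¹) = cl m b := by
    intro a b
    rw [_root_.map_mul, _root_.map_mul, _root_.map_inv, mul_comm (cl m a), mul_assoc,
      mul_inv_cancel, mul_one]
  have h0 : (cl m).comp (act (of 0)).toMonoidHom = cl m := by
    apply hom_ext
    · show cl m (act (of 0) c1) = _
      rw [act_0, T0_c1, hconj]
    · show cl m (act (of 0) c2) = _
      rw [act_0, T0_c2, hconj]
    · show cl m (act (of 0) c3) = _
      rw [act_0, T0_c3]
  have h1 : (cl m).comp (act (of 1)).toMonoidHom = cl m := by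
    apply hom_ext
    · show cl m (act (of 1) c1) = _
      rw [act_1, T1_c1]
    · show cl m (act (of 1) c2) = _
      rw [act_1, T1_c2, hconj]
    · show cl m (act (of 1) c3) = _
      rw [act_1, T1_c3, hconj]
  have hS : (⊤ : Subgroup V) ≤ S := by
    rw [← FreeGroup.closure_range_of, Subgroup.closure_le]
    rintro _ ⟨i, rfl⟩
    fin_cases i
    · exact fun y => DFunLike.congr_fun h0 y
    · exact fun y => DFunLike.congr_fun h1 y
  exact hS (Subgroup.mem_top v) y

/-- The elements of `V` acting trivially modulo `R`. -/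
def Triv (R : Subgroup Gam) [R.Normal] : Subgroup V where
  carrier := {v | ∀ y, act v y * y⁻¹ ∈ R}
  mul_mem' := by
    intro a b ha hb y
    have h1 := hb y
    have h2 := ha (act b y * y⁻¹)
    have h3 := ha y
    have h4 : act (a * b) y * y⁻¹ = (act a (act b y * y⁻¹) * (act b y * y⁻¹)⁻¹) *
        (act b y * y⁻¹) * (act a y * y⁻¹) := by
      rw [_root_.map_mul, MulAut.mul_apply, _root_.map_mul (act a), _root_.map_inv]
      group
    rw [h4]
    exact mul_mem (mul_mem h2 h1) h3
  one_mem' := by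
    intro y
    rw [_root_.map_one, MulAut.one_apply, mul_inv_cancel]
    exact one_mem _
  inv_mem' := by
    intro a ha y
    have h1 := ha (act a⁻¹ y)
    rw [← MulAut.mul_apply, ← _root_.map_mul, mul_inv_cancel, _root_.map_one,
      MulAut.one_apply] at h1
    have h2 := inv_mem h1
    rwa [mul_inv_rev, inv_inv] at h2

theorem mem_Triv {R : Subgroup Gam} [R.Normal] {v : V} :
    v ∈ Triv R ↔ ∀ y, act v y * y⁻¹ ∈ R := Iff.rfl

theorem Triv_stable {R : Subgroup Gam} [R.Normal] {v : V} (hv : v ∈ Triv R) {y : Gam}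
    (hy : y ∈ R) : act v y ∈ R := by
  have h := mul_mem (hv y) hy
  rwa [inv_mul_cancel_right] at h

theorem Triv_anti {R R' : Subgroup Gam} [R.Normal] [R'.Normal] (h : R ≤ R') :
    Triv R ≤ Triv R' := fun _ hv y => h (hv y)

instance finite_hom (Q : Type*) [Group Q] [Finite Q] : Finite (Gam →* Q) :=
  Finite.of_equiv _ (FreeGroup.lift (α := Fin 3) (β := Q))

/-- The elements acting trivially modulo a normal subgroup of finite index form a subgroup of
finite index. -/
instance Triv_finiteIndex (R : Subgroup Gam) [R.Normal] [R.FiniteIndex] :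
    (Triv R).FiniteIndex := by
  let f : V → (Gam →* Gam ⧸ R) := fun v => (QuotientGroup.mk' R).comp (act v⁻¹).toMonoidHom
  have hf : ∀ v w : V, f v = f w → v⁻¹ * w ∈ Triv R := by
    intro v w h y
    have h1 : f v (act w y) = f w (act w y) := by rw [h]
    have h2 : (QuotientGroup.mk' R) (act v⁻¹ (act w y)) =
      (QuotientGroup.mk' R) (act w⁻¹ (act w y)) := h1
    have h3 : act w⁻¹ (act w y) = y := by
      rw [← MulAut.mul_apply, ← _root_.map_mul, inv_mul_cancel, _root_.map_one, MulAut.one_apply]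
    have h4 : act v⁻¹ (act w y) = act (v⁻¹ * w) y := by
      rw [← MulAut.mul_apply, ← _root_.map_mul]
    rw [h3, h4] at h2
    have h5 : (QuotientGroup.mk' R) (act (v⁻¹ * w) y * y⁻¹) = 1 := by
      rw [_root_.map_mul, h2, _root_.map_inv, mul_inv_cancel]
    exact (QuotientGroup.eq_one_iff _).mp h5
  have hfin : Finite (V ⧸ Triv R) := by
    have hinj : Function.Injective (fun q : V ⧸ Triv R => f q.out) := by
      intro q q' h
      have h1 := hf _ _ h
      have h2 : (q.out : V ⧸ Triv R) = (q'.out : V ⧸ Triv R) := QuotientGroup.eq.mpr h1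
      rwa [QuotientGroup.out_eq', QuotientGroup.out_eq'] at h2
    exact Finite.of_injective _ hinj
  exact Subgroup.finiteIndex_of_finite_quotient

/-- The complement part of `K`. -/
def HH (m : ℕ) (R : Subgroup Gam) [R.Normal] : Subgroup V := (chi m).ker ⊓ Triv R

theorem mem_HH {m : ℕ} {R : Subgroup Gam} [R.Normal] {v : V} :
    v ∈ HH m R ↔ chi m v = 1 ∧ ∀ y, act v y * y⁻¹ ∈ R := Iff.rfl

theorem HH_stable {m : ℕ} {R : Subgroup Gam} [R.Normal] : ∀ v ∈ HH m R, ∀ y ∈ R, act v y ∈ R :=
  fun _ hv _ hy => Triv_stable hv.2 hy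

theorem HH_anti {m : ℕ} {R R' : Subgroup Gam} [R.Normal] [R'.Normal] (h : R ≤ R') :
    HH m R ≤ HH m R' := fun _ hv => ⟨hv.1, Triv_anti h hv.2⟩

theorem chi_ker_finiteIndex (m : ℕ) (hm : 0 < m) : (chi m).ker.FiniteIndex := by
  have : NeZero m := ⟨hm.ne'⟩
  have : Finite (Multiplicative (ZMod m)) := inferInstanceAs (Finite (ZMod m))
  infer_instance

theorem HH_finiteIndex (m : ℕ) (hm : 0 < m) (R : Subgroup Gam) [R.Normal] [R.FiniteIndex] :
    (HH m R).FiniteIndex := by
  have := chi_ker_finiteIndex m hm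
  exact inferInstanceAs (((chi m).ker ⊓ Triv R).FiniteIndex)

/-- The subgroup `K = R ⋊ H`. -/
def Kgrp (m : ℕ) (R : Subgroup Gam) [R.Normal] : Subgroup E := KK R (HH m R) HH_stable

theorem mem_Kgrp {m : ℕ} {R : Subgroup Gam} [R.Normal] {e : E} :
    e ∈ Kgrp m R ↔ e.left ∈ R ∧ e.right ∈ HH m R := Iff.rfl

theorem Kgrp_anti {m : ℕ} {R R' : Subgroup Gam} [R.Normal] [R'.Normal] (h : R ≤ R') :
    Kgrp m R ≤ Kgrp m R' := fun _ he => ⟨h he.1, HH_anti h he.2⟩

theorem Kgrp_finiteIndex (m : ℕ) (hm : 0 < m) (R : Subgroup Gam) [R.Normal] [R.FiniteIndex] :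
    (Kgrp m R).FiniteIndex := by
  have := HH_finiteIndex m hm R
  let L : Subgroup E := (HH m R).comap rightHom
  have hL : L.FiniteIndex := by
    refine ⟨?_⟩
    rw [Subgroup.index_comap_of_surjective _ rightHom_surjective]
    exact Subgroup.FiniteIndex.index_ne_zero
  have hle : Kgrp m R ≤ L := fun e he => he.2
  let ψ : L →* Gam ⧸ R :=
    { toFun := fun e => ((e : E).left : Gam ⧸ R)
      map_one' := rfl
      map_mul' := by
        rintro ⟨a, ha⟩ ⟨b, hb⟩
        show (((a * b : E).left : Gam) : Gam ⧸ R) = ((a.left * b.left : Gam) : Gam ⧸ R)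
        rw [mul_left]
        apply QuotientGroup.eq.mpr
        have h1 : act a.right b.left * (b.left)⁻¹ ∈ R := (show a.right ∈ HH m R from ha).2 _
        have h2 : (a.left * act a.right b.left)⁻¹ * (a.left * b.left) =
            (b.left)⁻¹ * (act a.right b.left * (b.left)⁻¹)⁻¹ * ((b.left)⁻¹)⁻¹ := by group
        rw [h2]
        exact Subgroup.Normal.conj_mem inferInstance _ (inv_mem h1) _ }
  have hker : (Kgrp m R).subgroupOf L = ψ.ker := by
    ext ⟨e, he⟩
    rw [Subgroup.mem_subgroupOf, MonoidHom.mem_ker]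
    show (e ∈ Kgrp m R) ↔ ((e.left : Gam) : Gam ⧸ R) = 1
    rw [QuotientGroup.eq_one_iff]
    exact ⟨fun h => h.1, fun h => ⟨h, he⟩⟩
  refine ⟨?_⟩
  rw [← Subgroup.relIndex_mul_index hle]
  apply mul_ne_zero
  · rw [Subgroup.relIndex, hker]
    exact Subgroup.FiniteIndex.index_ne_zero
  · exact hL.index_ne_zero

theorem comap_Kgrp (m : ℕ) (R : Subgroup Gam) [R.Normal] : (Kgrp m R).comap inl = R := by
  ext y
  rw [Subgroup.mem_comap, mem_Kgrp, left_inl, right_inl]
  exact ⟨fun h => h.1, fun h => ⟨h, one_mem _⟩⟩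

end Vale.Agent.P300.H951
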