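import Vale.Agent.P300.H951.Chi
import Vale.Agent.P300.H148.TorSpec

/-!
# P300, group block [GT]

`ALGProp`: the output of the algebra (Golod-Shafarevich and Lemma A).
`GTProp`: the input of the geometry: a decreasing sequence of subgroups of finite index of
`E = π₁(M_{0,5})` whose intersections with all the local lattices (fifteen crossings of the boundary
divisors of `M_{0,5}`-bar and all conjugates) are product lattices which do not depend on `n`,
unramified at the node over the base cusp, and with unbounded `[Gam : Gam ∩ K n]`.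
-/

namespace Vale.Agent.P300.H951

open FreeGroup SemidirectProduct

/-! ### the fifteen pairs -/

theorem inr_conj (v : V) (y : Gam) : (inr v : E) * inl y * (inr v)⁻¹ = inl (act v y) := by
  rw [inl_aut, _root_.map_inv]

/-- The standard arrangement in `E`. -/
def arr : Tor.Arr E where
  c1 := inl c1
  c2 := inl c2
  c3 := inl c3
  T0 := inr (of 0)
  T1 := inr (of 1)
  r01 := by rw [inr_conj, act_0, T0_c1]; simp only [_root_.map_mul, _root_.map_inv]
  r02 := by rw [inr_conj, act_0, T0_c2]; simp only [_root_.map_mul, _root_.map_inv]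
  r03 := by rw [inr_conj, act_0, T0_c3]
  r11 := by rw [inr_conj, act_1, T1_c1]
  r12 := by rw [inr_conj, act_1, T1_c2]; simp only [_root_.map_mul, _root_.map_inv]
  r13 := by rw [inr_conj, act_1, T1_c3]; simp only [_root_.map_mul, _root_.map_inv]

theorem arr_t0'' : arr.t0'' = tt 0 := by
  show inr (of 0) = inl 1 * inr (of 0)
  rw [_root_.map_one, one_mul]

theorem arr_t0' : arr.t0' = tp 0 := by
  show (inl c1 * inl c2)⁻¹ * inr (of 0) = inl (c1 * c2)⁻¹ * (inl 1 * inr (of 0))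
  rw [_root_.map_one, one_mul, _root_.map_inv, _root_.map_mul]

theorem arr_t1'' : arr.t1'' = tt 1 := by
  show inr (of 1) = inl 1 * inr (of 1)
  rw [_root_.map_one, one_mul]

theorem arr_t1' : arr.t1' = tp 1 := by
  show (inl c2 * inl c3)⁻¹ * inr (of 1) = inl (c2 * c3)⁻¹ * (inl 1 * inr (of 1))
  rw [_root_.map_one, one_mul, _root_.map_inv, _root_.map_mul]

theorem arr_ti'' : arr.ti'' = tt 2 := by
  show ((inl c1 * inl c2 * inl c3)⁻¹ * inr (of 0) * inr (of 1))⁻¹ = inl PP * inr T01⁻¹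
  have h : (inl PP : E) * inr T01⁻¹ = inr T01⁻¹ * inl PP := by
    have h1 := inr_conj T01⁻¹ PP
    rw [act_PP] at h1
    exact (mul_inv_eq_iff_eq_mul.mp h1).symm
  rw [h, _root_.map_inv, T01, PP]
  simp only [_root_.map_mul]
  group

theorem arr_ti' : arr.ti' = tp 2 := by
  show (inl c1 * inl c3)⁻¹ * arr.ti'' = inl (c1 * c3)⁻¹ * tt 2
  rw [arr_ti'', _root_.map_inv, _root_.map_mul]

theorem arr_c4 : arr.c4 = inl c4 := by
  show (inl c1 * inl c2 * inl c3)⁻¹ = inl (c1 * c2 * c3)⁻¹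
  simp only [_root_.map_inv, _root_.map_mul]

/-! ### the two Props -/

/-- The output of the algebra. -/
def ALGProp : Prop :=
  ∃ (V' : Subgroup V) (m B : ℕ) (R : ℕ → Subgroup Gam), V'.FiniteIndex ∧ 0 < m ∧ 0 < B ∧
    (∀ n, (R n).Normal) ∧ (∀ n, (R n).FiniteIndex) ∧ Antitone R ∧
    (∀ n, ∀ v ∈ V', ∀ y ∈ R n, act v y ∈ R n) ∧ (∀ n, dl 0 ∈ R n) ∧
    (∀ n g, act g c1 ^ m ∈ R n ∧ act g c2 ^ m ∈ R n ∧ act g c3 ^ m ∈ R n ∧ act g c4 ^ m ∈ R n) ∧
    (∀ n g s, act g (dl s) ^ B ∈ R n) ∧ (∀ N, ∃ n, N ≤ (R n).index)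

/-- The input of the geometry. -/
def GTProp : Prop :=
  ∃ (m : ℕ) (K : ℕ → Subgroup E), 0 < m ∧ (∀ n, (K n).FiniteIndex) ∧ Antitone K ∧
    (∀ n, ∀ γ : Gam, ∀ k ∈ K n, inl γ * k * (inl γ)⁻¹ ∈ K n) ∧
    (∀ n, arr.t0'' ∈ K n ∧ arr.t0' ∈ K n) ∧
    (∀ n, ∀ a : ℤ, (arr.c1 ^ a ∈ K n ↔ (m : ℤ) ∣ a) ∧ (arr.c2 ^ a ∈ K n ↔ (m : ℤ) ∣ a) ∧
      (arr.c3 ^ a ∈ K n ↔ (m : ℤ) ∣ a) ∧ (arr.c4 ^ a ∈ K n ↔ (m : ℤ) ∣ a)) ∧
    (∀ μ : Fin 15, ∀ e : E, ∃ p q : ℕ, 0 < p ∧ 0 < q ∧ ∀ n, ∀ i j : ℤ,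
      e * ((arr.std μ).1 ^ i * (arr.std μ).2 ^ j) * e⁻¹ ∈ K n ↔ (p : ℤ) ∣ i ∧ (q : ℤ) ∣ j) ∧
    (∀ N, ∃ n, N ≤ ((K n).comap inl).index)

/-! ### orders -/

theorem exists_ord {G : Type*} [Group G] (S : Subgroup G) (x : G) :
    ∃ n : ℕ, ∀ k : ℤ, x ^ k ∈ S ↔ (n : ℤ) ∣ k := by
  let A : AddSubgroup ℤ :=
    { carrier := {k | x ^ k ∈ S}
      add_mem' := by
        intro a b ha hb
        show x ^ (a + b) ∈ S
        rw [zpow_add]
        exact mul_mem ha hb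
      zero_mem' := by
        show x ^ (0 : ℤ) ∈ S
        rw [zpow_zero]
        exact one_mem _
      neg_mem' := by
        intro a ha
        show x ^ (-a) ∈ S
        rw [zpow_neg]
        exact inv_mem ha }
  obtain ⟨a, ha⟩ := Int.subgroup_cyclic A
  refine ⟨a.natAbs, fun k => ?_⟩
  have h : k ∈ A ↔ x ^ k ∈ S := Iff.rfl
  rw [← h, ha, AddSubgroup.mem_closure_singleton]
  rw [Int.natAbs_dvd]
  constructor
  · rintro ⟨l, rfl⟩
    exact ⟨l, by rw [smul_eq_mul, mul_comm]⟩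
  · rintro ⟨l, rfl⟩
    exact ⟨l, by rw [smul_eq_mul, mul_comm]⟩

/-- The order of `x` modulo `S` (`0` if infinite). -/
noncomputable def ord {G : Type*} [Group G] (S : Subgroup G) (x : G) : ℕ :=
  Classical.choose (exists_ord S x)

theorem ord_spec {G : Type*} [Group G] (S : Subgroup G) (x : G) (k : ℤ) :
    x ^ k ∈ S ↔ (ord S x : ℤ) ∣ k := Classical.choose_spec (exists_ord S x) k

theorem ord_dvd_of_le {G : Type*} [Group G] {S S' : Subgroup G} (h : S' ≤ S) (x : G) :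
    ord S x ∣ ord S' x := by
  have h1 : x ^ ((ord S' x : ℕ) : ℤ) ∈ S' := (ord_spec S' x _).mpr dvd_rfl
  exact Int.natCast_dvd_natCast.mp ((ord_spec S x _).mp (h h1))

theorem ord_eq_of_iff {G G' : Type*} [Group G] [Group G'] {S : Subgroup G} {S' : Subgroup G'}
    {x : G} {x' : G'} (h : ∀ k : ℤ, x ^ k ∈ S ↔ x' ^ k ∈ S') : ord S x = ord S' x' := by
  apply Nat.dvd_antisymm
  · have h1 : x' ^ ((ord S' x' : ℕ) : ℤ) ∈ S' := (ord_spec S' x' _).mpr dvd_rfl
    exact Int.natCast_dvd_natCast.mp ((ord_spec S x _).mp ((h _).mpr h1))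
  · have h1 : x ^ ((ord S x : ℕ) : ℤ) ∈ S := (ord_spec S x _).mpr dvd_rfl
    exact Int.natCast_dvd_natCast.mp ((ord_spec S' x' _).mp ((h _).mp h1))

/-- A bounded monotone sequence of natural numbers is eventually constant. -/
theorem eventually_const (f : ℕ → ℕ) (hf : Monotone f) (B : ℕ) (hB : ∀ n, f n ≤ B) :
    ∃ n0, ∀ n, n0 ≤ n → f n = f n0 := by
  by_contra hcon
  push Not at hcon
  have h : ∀ k : ℕ, ∃ n, k ≤ f n := by
    intro k
    induction k with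
    | zero => exact ⟨0, Nat.zero_le _⟩
    | succ k ih =>
      obtain ⟨n, hn⟩ := ih
      obtain ⟨n', hn', hne⟩ := hcon n
      have := hf hn'
      exact ⟨n', by omega⟩
  obtain ⟨n, hn⟩ := h (B + 1)
  have := hB n
  omega

end Vale.Agent.P300.H951
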