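import Vale.Agent.P300.H951.GT

/-!
# P300, group block [GT]: the local computation for one normal subgroup `R`
-/

namespace Vale.Agent.P300.H951

open FreeGroup SemidirectProduct

/-- What is used about one normal subgroup `R`. -/
structure Good (m B : ℕ) (R : Subgroup Gam) : Prop where
  cls : ∀ y ∈ R, cl m y = 1
  h1 : ∀ g, act g c1 ^ m ∈ R
  h2 : ∀ g, act g c2 ^ m ∈ R
  h3 : ∀ g, act g c3 ^ m ∈ R
  h4 : ∀ g, act g c4 ^ m ∈ R
  d : ∀ g s, act g (dl s) ^ B ∈ R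
  d0 : dl 0 ∈ R

theorem ofAdd_pow_eq {m : ℕ} (a b : ZMod m) (k : ℤ) :
    (Multiplicative.ofAdd (a, b)) ^ k = Multiplicative.ofAdd ((k : ZMod m) * a, (k : ZMod m) * b) := by
  rw [← ofAdd_zsmul]
  congr 1
  rw [Prod.smul_mk, zsmul_eq_mul, zsmul_eq_mul]

theorem ofAdd_eq_one_iff {m : ℕ} (a b : ZMod m) :
    (Multiplicative.ofAdd (a, b)) = 1 ↔ a = 0 ∧ b = 0 := by
  rw [ofAdd_eq_one, Prod.mk_eq_zero]

theorem cl_c4 (m : ℕ) : cl m c4 = Multiplicative.ofAdd (0, -1) := by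
  rw [c4, _root_.map_inv, _root_.map_mul, _root_.map_mul, cl_c1, cl_c2, cl_c3, ← ofAdd_add,
    ← ofAdd_add, ← ofAdd_neg]
  congr 1
  ext <;> simp

/-- classes of the first puncture of the first side -/
def ca (m : ℕ) : Fin 3 → ZMod m × ZMod m := ![(1, 0), (-1, 0), (1, 0)]
/-- classes of the second puncture of the first side -/
def cb (m : ℕ) : Fin 3 → ZMod m × ZMod m := ![(-1, 0), (0, 1), (0, 1)]
/-- classes of the first puncture of the second side -/
def cc (m : ℕ) : Fin 3 → ZMod m × ZMod m := ![(0, 1), (1, 0), (-1, 0)]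
/-- classes of the loop round the node -/
def cd (m : ℕ) : Fin 3 → ZMod m × ZMod m := ![(0, 0), (-1, 1), (1, 1)]

theorem cl_sa (m : ℕ) (s : Fin 3) : cl m (sa s) = Multiplicative.ofAdd (ca m s) := by
  fin_cases s
  · exact cl_c1 m
  · exact cl_c2 m
  · exact cl_c1 m

theorem cl_sb (m : ℕ) (s : Fin 3) : cl m (sb s) = Multiplicative.ofAdd (cb m s) := by
  fin_cases s
  · exact cl_c2 m
  · exact cl_c3 m
  · exact cl_c3 m

theorem cl_sc (m : ℕ) (s : Fin 3) : cl m (sc s) = Multiplicative.ofAdd (cc m s) := by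
  fin_cases s
  · exact cl_c3 m
  · exact cl_c1 m
  · show cl m (c1 * c2 * c1⁻¹) = _
    rw [_root_.map_mul, _root_.map_mul, _root_.map_inv, mul_comm (cl m c1), mul_assoc,
      mul_inv_cancel, mul_one]
    exact cl_c2 m

theorem cl_dl (m : ℕ) (s : Fin 3) : cl m (dl s) = Multiplicative.ofAdd (cd m s) := by
  rw [dl_eq, _root_.map_mul, cl_sa, cl_sb, ← ofAdd_add]
  congr 1
  fin_cases s <;> ext <;> simp [ca, cb, cd]

theorem cast_eq_zero {m : ℕ} {k : ℤ} : (k : ZMod m) = 0 ↔ (m : ℤ) ∣ k :=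
  ZMod.intCast_zmod_eq_zero_iff_dvd k m

variable {m B : ℕ} {R : Subgroup Gam}

/-- The class of a word `(g c)^i (g d)^j`. -/
theorem cl_word (g : V) {c d : Gam} {a b : ZMod m × ZMod m} (hc : cl m c = Multiplicative.ofAdd a)
    (hd : cl m d = Multiplicative.ofAdd b) (i j : ℤ) :
    cl m (act g c ^ i * act g d ^ j) = Multiplicative.ofAdd
      ((i : ZMod m) * a.1 + (j : ZMod m) * b.1, (i : ZMod m) * a.2 + (j : ZMod m) * b.2) := by
  rw [_root_.map_mul, map_zpow, map_zpow, cl_act, cl_act, hc, hd]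
  obtain ⟨a1, a2⟩ := a
  obtain ⟨b1, b2⟩ := b
  rw [ofAdd_pow_eq, ofAdd_pow_eq, ← ofAdd_add, Prod.mk_add_mk]

namespace Good

variable (G : Good m B R)
include G

theorem dvd_of_class {g : V} {c : Gam} {a : ZMod m × ZMod m}
    (hc : cl m c = Multiplicative.ofAdd a) (ha : ∀ k : ZMod m, k * a.1 = 0 → k * a.2 = 0 → k = 0)
    {k : ℤ} (hk : act g c ^ k ∈ R) : (m : ℤ) ∣ k := by
  have h := G.cls _ hk
  rw [map_zpow, cl_act, hc] at h
  obtain ⟨a1, a2⟩ := a
  rw [ofAdd_pow_eq, ofAdd_eq_one_iff] at h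
  exact cast_eq_zero.mp (ha _ h.1 h.2)

theorem order_c {g : V} {c : Gam} {a : ZMod m × ZMod m}
    (hc : cl m c = Multiplicative.ofAdd a) (ha : ∀ k : ZMod m, k * a.1 = 0 → k * a.2 = 0 → k = 0)
    (hm : act g c ^ m ∈ R) (k : ℤ) : act g c ^ k ∈ R ↔ (m : ℤ) ∣ k := by
  refine ⟨G.dvd_of_class hc ha, ?_⟩
  rintro ⟨l, rfl⟩
  rw [zpow_mul, zpow_natCast]
  exact zpow_mem hm l

theorem order_c4 (g : V) (k : ℤ) : act g c4 ^ k ∈ R ↔ (m : ℤ) ∣ k :=
  G.order_c (cl_c4 m) (fun k _ h => by simpa using h) (G.h4 g) k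

theorem order_c1 (g : V) (k : ℤ) : act g c1 ^ k ∈ R ↔ (m : ℤ) ∣ k :=
  G.order_c (cl_c1 m) (fun k h _ => by simpa using h) (G.h1 g) k

theorem order_c2 (g : V) (k : ℤ) : act g c2 ^ k ∈ R ↔ (m : ℤ) ∣ k :=
  G.order_c (cl_c2 m) (fun k h _ => by simpa using h) (G.h2 g) k

theorem order_c3 (g : V) (k : ℤ) : act g c3 ^ k ∈ R ↔ (m : ℤ) ∣ k :=
  G.order_c (cl_c3 m) (fun k _ h => by simpa using h) (G.h3 g) k

theorem order_sa (s : Fin 3) (g : V) (k : ℤ) : act g (sa s) ^ k ∈ R ↔ (m : ℤ) ∣ k := by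
  fin_cases s
  · exact G.order_c1 g k
  · exact G.order_c2 g k
  · exact G.order_c1 g k

theorem order_sb (s : Fin 3) (g : V) (k : ℤ) : act g (sb s) ^ k ∈ R ↔ (m : ℤ) ∣ k := by
  fin_cases s
  · exact G.order_c2 g k
  · exact G.order_c3 g k
  · exact G.order_c3 g k

theorem order_sc [R.Normal] (s : Fin 3) (g : V) (k : ℤ) : act g (sc s) ^ k ∈ R ↔ (m : ℤ) ∣ k := by
  fin_cases s
  · exact G.order_c3 g k
  · exact G.order_c1 g k
  · rw [← G.order_c2 g k]
    show act g (c1 * c2 * c1⁻¹) ^ k ∈ R ↔ _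
    rw [_root_.map_mul, _root_.map_mul, _root_.map_inv, conj_zpow]
    constructor
    · intro h
      have h2 := Subgroup.Normal.conj_mem inferInstance _ h (act g c1)⁻¹
      have h3 : (act g c1)⁻¹ * (act g c1 * act g c2 ^ k * (act g c1)⁻¹) * ((act g c1)⁻¹)⁻¹ =
          act g c2 ^ k := by group
      rwa [h3] at h2
    · intro h
      exact Subgroup.Normal.conj_mem inferInstance _ h _

/-- Independence of the classes on the first side. -/
theorem indep_sa (s : Fin 3) (g : V) (i j : ℤ)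
    (h : act g (sa s) ^ i * act g (dl s) ^ j ∈ R) : (m : ℤ) ∣ i := by
  have h1 := G.cls _ h
  rw [cl_word g (cl_sa m s) (cl_dl m s), ofAdd_eq_one_iff] at h1
  rw [← cast_eq_zero]
  fin_cases s
  · simpa [ca, cd] using h1.1
  · have h2 : (j : ZMod m) = 0 := by simpa [ca, cd] using h1.2
    have h3 := h1.1
    simp only [ca, cd] at h3
    simpa [h2] using h3
  · have h2 : (j : ZMod m) = 0 := by simpa [ca, cd] using h1.2
    have h3 := h1.1
    simpa [h2, ca, cd] using h3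

theorem indep_sb (s : Fin 3) (g : V) (i j : ℤ)
    (h : act g (sb s) ^ i * act g (dl s) ^ j ∈ R) : (m : ℤ) ∣ i := by
  have h1 := G.cls _ h
  rw [cl_word g (cl_sb m s) (cl_dl m s), ofAdd_eq_one_iff] at h1
  rw [← cast_eq_zero]
  fin_cases s
  · simpa [cb, cd] using h1.1
  · have h2 : (j : ZMod m) = 0 := by simpa [cb, cd] using h1.1
    have h3 := h1.2
    simpa [h2, cb, cd] using h3
  · have h2 : (j : ZMod m) = 0 := by simpa [cb, cd] using h1.1
    have h3 := h1.2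
    simpa [h2, cb, cd] using h3

end Good

end Vale.Agent.P300.H951
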