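import Vale.Agent.P300.H951.GT2

/-!
# P300, group block [GT]: all local lattices of `K = R ⋊ H` are product lattices
-/

namespace Vale.Agent.P300.H951

open FreeGroup SemidirectProduct

variable {m B : ℕ} {R : Subgroup Gam}

theorem ofAdd_one_zpow {m : ℕ} {k : ℤ} (h : (m : ℤ) ∣ k) :
    (Multiplicative.ofAdd (1 : ZMod m)) ^ k = 1 := by
  rw [← ofAdd_zsmul, zsmul_one, cast_eq_zero.mpr h]; rfl

theorem dvd_of_ofAdd_one_zpow {m : ℕ} {k : ℤ} (h : (Multiplicative.ofAdd (1 : ZMod m)) ^ k = 1) :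
    (m : ℤ) ∣ k := by
  rw [← ofAdd_zsmul, zsmul_one, ofAdd_eq_one] at h
  exact cast_eq_zero.mp h

theorem chi_conj (m : ℕ) (g x : V) : chi m (g * x * g⁻¹) = chi m x := by
  rw [_root_.map_mul, _root_.map_mul, _root_.map_inv, mul_comm (chi m g), mul_assoc,
    mul_inv_cancel, mul_one]

theorem chi_Ts2 (m : ℕ) : chi m (Ts 2) = (Multiplicative.ofAdd 1)⁻¹ := by
  show chi m (of 0 * of 1)⁻¹ = _
  rw [_root_.map_inv, _root_.map_mul, chi_0, chi_1, one_mul]

theorem chi_Ts_eq_one {k : ℤ} (h : (m : ℤ) ∣ k) (s : Fin 3) : chi m (Ts s ^ k) = 1 := by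
  rw [map_zpow]
  fin_cases s
  · show chi m (of 0) ^ k = 1
    rw [chi_0, one_zpow]
  · show chi m (of 1) ^ k = 1
    rw [chi_1]
    exact ofAdd_one_zpow h
  · show chi m (Ts 2) ^ k = 1
    rw [chi_Ts2, inv_zpow, ofAdd_one_zpow h, inv_one]

theorem dvd_of_chi {k : ℤ} (h : chi m (Ts 2 ^ k) = 1) : (m : ℤ) ∣ k := by
  rw [map_zpow, chi_Ts2, inv_zpow, inv_eq_one] at h
  exact dvd_of_ofAdd_one_zpow h

namespace Good

variable (G : Good m B R)
include G

theorem xx_mem {k : ℤ} (h : (m : ℤ) ∣ k) (s : Fin 3) : xx s ^ k ∈ R := by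
  fin_cases s
  · show (1 : Gam) ^ k ∈ R
    rw [one_zpow]; exact one_mem _
  · show (1 : Gam) ^ k ∈ R
    rw [one_zpow]; exact one_mem _
  · show PP ^ k ∈ R
    have h1 := (G.order_c4 1 k).mpr h
    rw [_root_.map_one, MulAut.one_apply, c4_eq, inv_zpow] at h1
    exact inv_mem_iff.mp h1

variable [R.Normal]

/-- `(h3)`: the fibre part of a power of `t''` whose base part is in `H` is in `R`. -/
theorem xx_mem_of_HH {g : V} {s : Fin 3} {k : ℤ} (h : g * Ts s ^ k * g⁻¹ ∈ HH m R) :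
    xx s ^ k ∈ R := by
  have h1 : chi m (g * Ts s ^ k * g⁻¹) = 1 := (mem_HH.mp h).1
  rw [chi_conj] at h1
  fin_cases s
  · show (1 : Gam) ^ k ∈ R
    rw [one_zpow]; exact one_mem _
  · show (1 : Gam) ^ k ∈ R
    rw [one_zpow]; exact one_mem _
  · exact G.xx_mem (dvd_of_chi h1) 2

/-- If `(g δ)^k ∈ R` then `g T^k g⁻¹ ∈ H`. -/
theorem T_mem {g : V} {s : Fin 3} {k : ℤ} (h : act g (dl s) ^ k ∈ R) :
    g * Ts s ^ k * g⁻¹ ∈ HH m R := by
  -- either `s = 0` or `m ∣ k`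
  have hk : s = 0 ∨ (m : ℤ) ∣ k := by
    fin_cases s
    · exact Or.inl rfl
    · right
      exact G.dvd_of_class (cl_dl m 1) (fun k h _ => by simpa [cd] using h) h
    · right
      exact G.dvd_of_class (cl_dl m 2) (fun k h _ => by simpa [cd] using h) h
  have hx : xx s ^ k ∈ R := by
    rcases hk with rfl | hk
    · show (1 : Gam) ^ k ∈ R
      rw [one_zpow]; exact one_mem _
    · exact G.xx_mem hk s
  have hchi : chi m (Ts s ^ k) = 1 := by
    rcases hk with rfl | hk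
    · rw [map_zpow]
      show chi m (of 0) ^ k = 1
      rw [chi_0, one_zpow]
    · exact chi_Ts_eq_one hk s
  refine mem_HH.mpr ⟨by rw [chi_conj]; exact hchi, ?_⟩
  intro y
  have hN : (R.comap (act g).toMonoidHom).Normal := inferInstance
  have h1 : act (Ts s ^ k) (act g⁻¹ y) * (act g⁻¹ y)⁻¹ ∈ R.comap (act g).toMonoidHom := by
    apply triv_of_mem
    · show act g (xx s ^ k) ∈ R
      rw [map_zpow, act_xx]
      exact hx
    · show act g (dl s ^ k) ∈ R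
      rw [map_zpow]
      exact h
  have h2 : act g (act (Ts s ^ k) (act g⁻¹ y) * (act g⁻¹ y)⁻¹) ∈ R := h1
  have h4 : act g (act g⁻¹ y) = y := by
    rw [← MulAut.mul_apply, ← _root_.map_mul, mul_inv_cancel, _root_.map_one, MulAut.one_apply]
  have h3 : act g (act (Ts s ^ k) (act g⁻¹ y) * (act g⁻¹ y)⁻¹) =
      act (g * Ts s ^ k * g⁻¹) y * y⁻¹ := by
    rw [_root_.map_mul (act g), _root_.map_inv (act g), h4, _root_.map_mul act,
      _root_.map_mul act, MulAut.mul_apply, MulAut.mul_apply]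
  rwa [h3] at h2

end Good

/-! ### lattices -/

/-- The lattice of `a, b` in the conjugate of `K` by `e` is `p ℤ × q ℤ`. -/
def Lat (K : Subgroup E) (a b e : E) (p q : ℕ) : Prop :=
  ∀ i j : ℤ, e * (a ^ i * b ^ j) * e⁻¹ ∈ K ↔ (p : ℤ) ∣ i ∧ (q : ℤ) ∣ j

theorem Lat.swap {K : Subgroup E} {a b e : E} {p q : ℕ} (hab : Commute a b)
    (h : Lat K a b e p q) : Lat K b a e q p := by
  intro i j
  rw [← (hab.zpow_zpow j i).eq, h j i]
  exact and_comm

/-- order of the node loop -/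
noncomputable def oo (R : Subgroup Gam) (g : V) (s : Fin 3) : ℕ := ord R (act g (dl s))

/-- width -/
noncomputable def ww (m : ℕ) (R : Subgroup Gam) [R.Normal] (g : V) (s : Fin 3) : ℕ :=
  ord (HH m R) (g * Ts s * g⁻¹)

theorem oo_spec (g : V) (s : Fin 3) (k : ℤ) : act g (dl s) ^ k ∈ R ↔ (oo R g s : ℤ) ∣ k :=
  ord_spec _ _ _

variable [R.Normal]

theorem ww_spec (g : V) (s : Fin 3) (k : ℤ) :
    g * Ts s ^ k * g⁻¹ ∈ HH m R ↔ (ww m R g s : ℤ) ∣ k := by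
  rw [← conj_zpow]
  exact ord_spec _ _ _

namespace Good

variable (G : Good m B R)
include G

theorem ww_dvd_oo (g : V) (s : Fin 3) : ww m R g s ∣ oo R g s := by
  have h := G.T_mem ((oo_spec (R := R) g s (oo R g s)).mpr dvd_rfl)
  exact Int.natCast_dvd_natCast.mp ((ww_spec g s _).mp h)

omit [R.Normal] in
theorem oo_dvd (g : V) (s : Fin 3) : oo R g s ∣ B := by
  have h : act g (dl s) ^ ((B : ℕ) : ℤ) ∈ R := by
    rw [zpow_natCast]
    exact G.d g s
  exact Int.natCast_dvd_natCast.mp ((oo_spec g s _).mp h)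

theorem lat_c_tt (s : Fin 3) (c : Gam) (e : E)
    (hc : ∀ k : ℤ, act e.right c ^ k ∈ R ↔ (m : ℤ) ∣ k) :
    Lat (Kgrp m R) (inl c) (tt s) e m (ww m R e.right s) := by
  intro i j
  have ht : ∀ v ∈ HH m R, ∀ y, act v y * y⁻¹ ∈ R := fun v hv => hv.2
  rw [Kgrp, KK_conj_iff ht, c_tt, conj_mem_iff, _root_.map_mul, map_zpow, map_zpow, act_xx,
    ← ww_spec e.right s j]
  rw [and_congr_left_iff]
  intro h
  rw [Subgroup.mul_mem_cancel_right _ (G.xx_mem_of_HH h), hc]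

theorem lat_c_tp (s : Fin 3) (c : Gam) (e : E)
    (hc : ∀ k : ℤ, act e.right c ^ k ∈ R ↔ (m : ℤ) ∣ k)
    (hi : ∀ i j : ℤ, act e.right c ^ i * act e.right (dl s) ^ j ∈ R → (m : ℤ) ∣ i) :
    Lat (Kgrp m R) (inl c) (tp s) e m (oo R e.right s) := by
  intro i j
  have ht : ∀ v ∈ HH m R, ∀ y, act v y * y⁻¹ ∈ R := fun v hv => hv.2
  rw [Kgrp, KK_conj_iff ht, c_tp, conj_mem_iff, _root_.map_mul, _root_.map_mul, map_zpow,
    map_zpow, map_zpow, act_xx]
  constructor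
  · rintro ⟨h1, h2⟩
    rw [Subgroup.mul_mem_cancel_right _ (G.xx_mem_of_HH h2)] at h1
    have h3 := hi _ _ h1
    refine ⟨h3, ?_⟩
    rw [Subgroup.mul_mem_cancel_left _ ((hc i).mpr h3)] at h1
    exact dvd_neg.mp ((oo_spec _ _ _).mp h1)
  · rintro ⟨h1, h2⟩
    have h3 : act e.right (dl s) ^ (-j) ∈ R := (oo_spec _ _ _).mpr (dvd_neg.mpr h2)
    have h4 : e.right * Ts s ^ j * e.right⁻¹ ∈ HH m R := G.T_mem ((oo_spec _ _ _).mpr h2)
    exact ⟨mul_mem (mul_mem ((hc i).mpr h1) h3) (G.xx_mem_of_HH h4), h4⟩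

theorem lat_tp_tt (s : Fin 3) (e : E) :
    Lat (Kgrp m R) (tp s) (tt s) e (oo R e.right s) (ww m R e.right s) := by
  intro i j
  have ht : ∀ v ∈ HH m R, ∀ y, act v y * y⁻¹ ∈ R := fun v hv => hv.2
  rw [Kgrp, KK_conj_iff ht, tp_tt, conj_mem_iff, _root_.map_mul, map_zpow, map_zpow, act_xx]
  have hwo : (ww m R e.right s : ℤ) ∣ (oo R e.right s : ℤ) :=
    Int.natCast_dvd_natCast.mpr (G.ww_dvd_oo e.right s)
  constructor
  · rintro ⟨h1, h2⟩
    rw [Subgroup.mul_mem_cancel_right _ (G.xx_mem_of_HH h2), oo_spec, dvd_neg] at h1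
    rw [ww_spec] at h2
    exact ⟨h1, (dvd_add_right (hwo.trans h1)).mp h2⟩
  · rintro ⟨h1, h2⟩
    have h3 : e.right * Ts s ^ (i + j) * e.right⁻¹ ∈ HH m R :=
      (ww_spec _ _ _).mpr (dvd_add (hwo.trans h1) h2)
    exact ⟨mul_mem ((oo_spec _ _ _).mpr (dvd_neg.mpr h1)) (G.xx_mem_of_HH h3), h3⟩

end Good

/-! ### commutation -/

theorem commute_tp_tt (s : Fin 3) : Commute (tp s) (tt s) := by
  have h : Commute (inl (dl s)⁻¹ : E) (tt s) := by
    rw [_root_.map_inv]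
    exact (commute_dl s).inv_left
  exact h.mul_left (Commute.refl _)

theorem commute_sc (s : Fin 3) : Commute (inl (sc s) : E) (tt s) := by
  have h := tt_conj s (sc s)
  rw [theta_sc] at h
  exact (mul_inv_eq_iff_eq_mul.mp h).symm

theorem commute_c4 (s : Fin 3) : Commute (inl c4 : E) (tt s) := by
  have h := tt_conj s c4
  rw [act_c4] at h
  have h2 : xx s * c4 * (xx s)⁻¹ = c4 := by
    fin_cases s
    · show 1 * c4 * 1⁻¹ = c4
      group
    · show 1 * c4 * 1⁻¹ = c4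
      group
    · show PP * c4 * PP⁻¹ = c4
      rw [c4_eq]; group
  rw [h2] at h
  exact (mul_inv_eq_iff_eq_mul.mp h).symm

/-- the fibre and the two parameters (`0 = m`, `1 = order`, `2 = width`) of the fifteen pairs -/
def par : Fin 15 → Fin 3 × Fin 3 × Fin 3 :=
  ![(0, 2, 1), (0, 0, 1), (0, 2, 0), (1, 0, 1), (1, 0, 1), (0, 0, 1), (0, 2, 0), (1, 0, 2),
    (1, 0, 2), (1, 1, 2), (2, 0, 1), (2, 0, 1), (2, 0, 2), (2, 0, 2), (2, 1, 2)]

theorem Good.all_lat (G : Good m B R) (μ : Fin 15) (e : E) :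
    Lat (Kgrp m R) (arr.std μ).1 (arr.std μ).2 e
      (![m, oo R e.right (par μ).1, ww m R e.right (par μ).1] (par μ).2.1)
      (![m, oo R e.right (par μ).1, ww m R e.right (par μ).1] (par μ).2.2) := by
  fin_cases μ
  · show Lat _ arr.t0'' arr.t0' e (ww m R e.right 0) (oo R e.right 0)
    rw [arr_t0'', arr_t0']
    exact (G.lat_tp_tt 0 e).swap (commute_tp_tt 0)
  · show Lat _ arr.c2 arr.t0' e m (oo R e.right 0)
    rw [arr_t0']
    exact G.lat_c_tp 0 (sb 0) e (G.order_sb 0 _) (G.indep_sb 0 _)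
  · show Lat _ arr.t0'' arr.c3 e (ww m R e.right 0) m
    rw [arr_t0'']
    exact (G.lat_c_tt 0 (sc 0) e (G.order_sc 0 _)).swap (commute_sc 0)
  · show Lat _ arr.c2 arr.t1' e m (oo R e.right 1)
    rw [arr_t1']
    exact G.lat_c_tp 1 (sa 1) e (G.order_sa 1 _) (G.indep_sa 1 _)
  · show Lat _ arr.c3 arr.t1' e m (oo R e.right 1)
    rw [arr_t1']
    exact G.lat_c_tp 1 (sb 1) e (G.order_sb 1 _) (G.indep_sb 1 _)
  · show Lat _ arr.c1 arr.t0' e m (oo R e.right 0)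
    rw [arr_t0']
    exact G.lat_c_tp 0 (sa 0) e (G.order_sa 0 _) (G.indep_sa 0 _)
  · show Lat _ arr.t0'' arr.c4 e (ww m R e.right 0) m
    rw [arr_t0'', arr_c4]
    exact (G.lat_c_tt 0 c4 e (G.order_c4 _)).swap (commute_c4 0)
  · show Lat _ arr.c1 arr.t1'' e m (ww m R e.right 1)
    rw [arr_t1'']
    exact G.lat_c_tt 1 (sc 1) e (G.order_sc 1 _)
  · show Lat _ arr.c4 arr.t1'' e m (ww m R e.right 1)
    rw [arr_t1'', arr_c4]
    exact G.lat_c_tt 1 c4 e (G.order_c4 _)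
  · show Lat _ arr.t1' arr.t1'' e (oo R e.right 1) (ww m R e.right 1)
    rw [arr_t1'', arr_t1']
    exact G.lat_tp_tt 1 e
  · show Lat _ arr.c1 arr.ti' e m (oo R e.right 2)
    rw [arr_ti']
    exact G.lat_c_tp 2 (sa 2) e (G.order_sa 2 _) (G.indep_sa 2 _)
  · show Lat _ arr.c3 arr.ti' e m (oo R e.right 2)
    rw [arr_ti']
    exact G.lat_c_tp 2 (sb 2) e (G.order_sb 2 _) (G.indep_sb 2 _)
  · show Lat _ (arr.c1 * arr.c2 * arr.c1⁻¹) arr.ti'' e m (ww m R e.right 2)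
    have h : arr.c1 * arr.c2 * arr.c1⁻¹ = inl (sc 2) := by
      show inl c1 * inl c2 * (inl c1)⁻¹ = inl (c1 * c2 * c1⁻¹)
      simp only [_root_.map_mul, _root_.map_inv]
    rw [arr_ti'', h]
    exact G.lat_c_tt 2 (sc 2) e (G.order_sc 2 _)
  · show Lat _ arr.c4 arr.ti'' e m (ww m R e.right 2)
    rw [arr_ti'', arr_c4]
    exact G.lat_c_tt 2 c4 e (G.order_c4 _)
  · show Lat _ arr.ti' arr.ti'' e (oo R e.right 2) (ww m R e.right 2)
    rw [arr_ti'', arr_ti']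
    exact G.lat_tp_tt 2 e

end Vale.Agent.P300.H951
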