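import Vale.Agent.P300.H951.GT3

/-!
# P300, group block [GT]: `ALGProp → GTProp`
-/

namespace Vale.Agent.P300.H951

open FreeGroup SemidirectProduct

/-- Intersection with the kernel of the class modulo `m`. -/
def RR (m : ℕ) (R : ℕ → Subgroup Gam) (n : ℕ) : Subgroup Gam := R n ⊓ (cl m).ker

theorem RR_normal (m : ℕ) {R : ℕ → Subgroup Gam} (h : ∀ n, (R n).Normal) (n : ℕ) :
    (RR m R n).Normal := by
  have := h n
  exact inferInstanceAs ((R n ⊓ (cl m).ker).Normal)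

theorem RR_finiteIndex {m : ℕ} (hm : 0 < m) {R : ℕ → Subgroup Gam} (h : ∀ n, (R n).FiniteIndex)
    (n : ℕ) : (RR m R n).FiniteIndex := by
  have := h n
  have : NeZero m := ⟨hm.ne'⟩
  have : Finite (Multiplicative (ZMod m × ZMod m)) := inferInstanceAs (Finite (ZMod m × ZMod m))
  have h2 : (cl m).ker.FiniteIndex := inferInstance
  exact inferInstanceAs ((R n ⊓ (cl m).ker).FiniteIndex)

theorem RR_anti (m : ℕ) {R : ℕ → Subgroup Gam} (h : Antitone R) : Antitone (RR m R) :=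
  fun _ _ hab => inf_le_inf_right _ (h hab)

theorem pow_m {m : ℕ} (x : Multiplicative (ZMod m × ZMod m)) : x ^ m = 1 := by
  obtain ⟨a, b⟩ := x
  show (Multiplicative.ofAdd (a, b)) ^ m = 1
  rw [← zpow_natCast, ofAdd_pow_eq, ofAdd_eq_one_iff]
  simp

theorem RR_good {m B : ℕ} {R : ℕ → Subgroup Gam} (h0 : ∀ n, dl 0 ∈ R n)
    (hc : ∀ n g, act g c1 ^ m ∈ R n ∧ act g c2 ^ m ∈ R n ∧ act g c3 ^ m ∈ R n ∧
      act g c4 ^ m ∈ R n)
    (hd : ∀ n g s, act g (dl s) ^ B ∈ R n) (n : ℕ) : Good m (B * m) (RR m R n) where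
  cls y hy := hy.2
  h1 g := ⟨(hc n g).1, by
    show cl m _ = 1
    rw [map_pow, pow_m]⟩
  h2 g := ⟨(hc n g).2.1, by
    show cl m _ = 1
    rw [map_pow, pow_m]⟩
  h3 g := ⟨(hc n g).2.2.1, by
    show cl m _ = 1
    rw [map_pow, pow_m]⟩
  h4 g := ⟨(hc n g).2.2.2, by
    show cl m _ = 1
    rw [map_pow, pow_m]⟩
  d g s := ⟨by
    rw [pow_mul]
    exact pow_mem (hd n g s) m, by
    show cl m _ = 1
    rw [pow_mul, map_pow, pow_m]⟩
  d0 := ⟨h0 n, by
    show cl m _ = 1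
    rw [cl_dl]; rfl⟩

/-- Stability of `R` under `v` and `v⁻¹`. -/
theorem act_mem_iff {V' : Subgroup V} {R : Subgroup Gam}
    (hst : ∀ v ∈ V', ∀ y ∈ R, act v y ∈ R) {v : V} (hv : v ∈ V') (y : Gam) :
    act v y ∈ R ↔ y ∈ R := by
  refine ⟨fun h => ?_, hst v hv y⟩
  have h1 := hst v⁻¹ (inv_mem hv) _ h
  rwa [← MulAut.mul_apply, ← _root_.map_mul, inv_mul_cancel, _root_.map_one,
    MulAut.one_apply] at h1

theorem HH_conj_mem {m : ℕ} {V' : Subgroup V} {R : Subgroup Gam} [R.Normal]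
    (hst : ∀ v ∈ V', ∀ y ∈ R, act v y ∈ R) {v : V} (hv : v ∈ V') {u : V} (hu : u ∈ HH m R) :
    v * u * v⁻¹ ∈ HH m R := by
  obtain ⟨hu1, hu2⟩ := mem_HH.mp hu
  refine mem_HH.mpr ⟨by rw [chi_conj]; exact hu1, ?_⟩
  intro y
  have h4 : act v (act v⁻¹ y) = y := by
    rw [← MulAut.mul_apply, ← _root_.map_mul, mul_inv_cancel, _root_.map_one, MulAut.one_apply]
  have h3 : act (v * u * v⁻¹) y * y⁻¹ = act v (act u (act v⁻¹ y) * (act v⁻¹ y)⁻¹) := by
    rw [_root_.map_mul (act v), _root_.map_inv (act v), h4, _root_.map_mul act,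
      _root_.map_mul act, MulAut.mul_apply, MulAut.mul_apply]
  rw [h3]
  exact hst v hv _ (hu2 _)

theorem HH_conj_iff {m : ℕ} {V' : Subgroup V} {R : Subgroup Gam} [R.Normal]
    (hst : ∀ v ∈ V', ∀ y ∈ R, act v y ∈ R) {v : V} (hv : v ∈ V') (u : V) :
    v * u * v⁻¹ ∈ HH m R ↔ u ∈ HH m R := by
  refine ⟨fun h => ?_, HH_conj_mem hst hv⟩
  have h1 := HH_conj_mem hst (inv_mem hv) h
  have h2 : v⁻¹ * (v * u * v⁻¹) * v⁻¹⁻¹ = u := by group
  rwa [h2] at h1

theorem oo_mul {V' : Subgroup V} {R : Subgroup Gam}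
    (hst : ∀ v ∈ V', ∀ y ∈ R, act v y ∈ R) {v : V} (hv : v ∈ V') (g : V) (s : Fin 3) :
    oo R (v * g) s = oo R g s := by
  apply ord_eq_of_iff
  intro k
  rw [_root_.map_mul, MulAut.mul_apply, ← map_zpow]
  exact act_mem_iff hst hv _

theorem ww_mul {m : ℕ} {V' : Subgroup V} {R : Subgroup Gam} [R.Normal]
    (hst : ∀ v ∈ V', ∀ y ∈ R, act v y ∈ R) {v : V} (hv : v ∈ V') (g : V) (s : Fin 3) :
    ww m R (v * g) s = ww m R g s := by
  apply ord_eq_of_iff
  intro k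
  rw [conj_zpow, conj_zpow]
  have h : v * g * Ts s ^ k * (v * g)⁻¹ = v * (g * Ts s ^ k * g⁻¹) * v⁻¹ := by group
  rw [h]
  exact HH_conj_iff hst hv _

/-- **GT from ALG.** -/
theorem gt_of_alg (h : ALGProp) : GTProp := by
  obtain ⟨V', m, B, R, hV', hm, hB, hN, hfi, hanti, hst, h0, hc, hd, hub⟩ := h
  have hN' : ∀ n, (RR m R n).Normal := RR_normal m hN
  have hG : ∀ n, Good m (B * m) (RR m R n) := RR_good h0 hc hd
  have hst' : ∀ n, ∀ v ∈ V', ∀ y ∈ RR m R n, act v y ∈ RR m R n := by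
    intro n v hv y hy
    refine ⟨hst n v hv y hy.1, ?_⟩
    show cl m (act v y) = 1
    rw [cl_act]
    exact hy.2
  have hBm : 0 < B * m := Nat.mul_pos hB hm
  -- orders and widths are bounded and nondecreasing
  have hopos : ∀ n g s, 0 < oo (RR m R n) g s := fun n g s =>
    Nat.pos_of_dvd_of_pos ((hG n).oo_dvd g s) hBm
  have hwpos : ∀ n g s, 0 < ww m (RR m R n) g s := fun n g s =>
    Nat.pos_of_dvd_of_pos ((hG n).ww_dvd_oo g s) (hopos n g s)
  have homono : ∀ g s, Monotone fun n => oo (RR m R n) g s := by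
    intro g s a b hab
    exact Nat.le_of_dvd (hopos b g s) (ord_dvd_of_le (RR_anti m hanti hab) _)
  have hwmono : ∀ g s, Monotone fun n => ww m (RR m R n) g s := by
    intro g s a b hab
    exact Nat.le_of_dvd (hwpos b g s) (ord_dvd_of_le (HH_anti (RR_anti m hanti hab)) _)
  have hole : ∀ n g s, oo (RR m R n) g s ≤ B * m := fun n g s =>
    Nat.le_of_dvd hBm ((hG n).oo_dvd g s)
  have hwle : ∀ n g s, ww m (RR m R n) g s ≤ B * m := fun n g s =>
    (Nat.le_of_dvd (hopos n g s) ((hG n).ww_dvd_oo g s)).trans (hole n g s)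
  -- stationarity
  have hstat : ∃ n0, ∀ n, n0 ≤ n → ∀ g s, oo (RR m R n) g s = oo (RR m R n0) g s ∧
      ww m (RR m R n) g s = ww m (RR m R n0) g s := by
    have hfin : Finite (V ⧸ V') := Subgroup.finite_quotient_of_finiteIndex
    have : Fintype (V ⧸ V') := Fintype.ofFinite _
    have h1 : ∀ p : (V ⧸ V') × Fin 3, ∃ n0, ∀ n, n0 ≤ n →
        oo (RR m R n) (p.1.out)⁻¹ p.2 = oo (RR m R n0) (p.1.out)⁻¹ p.2 :=
      fun p => eventually_const _ (homono _ _) _ fun n => hole n _ _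
    have h2 : ∀ p : (V ⧸ V') × Fin 3, ∃ n0, ∀ n, n0 ≤ n →
        ww m (RR m R n) (p.1.out)⁻¹ p.2 = ww m (RR m R n0) (p.1.out)⁻¹ p.2 :=
      fun p => eventually_const _ (hwmono _ _) _ fun n => hwle n _ _
    choose a ha using h1
    choose b hb using h2
    refine ⟨(Finset.univ.sup a) ⊔ (Finset.univ.sup b), fun n hn g s => ?_⟩
    set n0 := (Finset.univ.sup a) ⊔ (Finset.univ.sup b) with hn0
    set q : V ⧸ V' := ((g⁻¹ : V) : V ⧸ V') with hq
    have hout : (q.out)⁻¹ * g⁻¹ ∈ V' := by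
      rw [← QuotientGroup.eq, QuotientGroup.out_eq']
    have hg : g = ((q.out)⁻¹ * g⁻¹)⁻¹ * (q.out)⁻¹ := by group
    have hmem := inv_mem hout
    have ha' : a (q, s) ≤ n0 := (Finset.le_sup (Finset.mem_univ _)).trans le_sup_left
    have hb' : b (q, s) ≤ n0 := (Finset.le_sup (Finset.mem_univ _)).trans le_sup_right
    rw [hg]
    constructor
    · rw [oo_mul (hst' n) hmem, oo_mul (hst' n0) hmem, ha (q, s) n (ha'.trans hn),
        ha (q, s) n0 ha']
    · rw [ww_mul (hst' n) hmem, ww_mul (hst' n0) hmem, hb (q, s) n (hb'.trans hn),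
        hb (q, s) n0 hb']
  obtain ⟨n0, hn0⟩ := hstat
  refine ⟨m, fun n => Kgrp m (RR m R (n + n0)), hm, ?_, ?_, ?_, ?_, ?_, ?_, ?_⟩
  · intro n
    have := RR_finiteIndex hm hfi (n + n0)
    exact Kgrp_finiteIndex m hm _
  · intro a b hab
    exact Kgrp_anti (RR_anti m hanti (Nat.add_le_add_right hab n0))
  · intro n γ k hk
    have ht : ∀ v ∈ HH m (RR m R (n + n0)), ∀ y, act v y * y⁻¹ ∈ RR m R (n + n0) :=
      fun v hv => (mem_HH.mp hv).2
    exact KK_conj_inl ht γ hk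
  · intro n
    have hG' := hG (n + n0)
    have h1 : tt 0 ∈ Kgrp m (RR m R (n + n0)) := by
      have h2 := hG'.T_mem (g := 1) (s := 0) (k := 1) (by
        rw [_root_.map_one, MulAut.one_apply, zpow_one]
        exact hG'.d0)
      rw [zpow_one, one_mul, inv_one, mul_one] at h2
      have h3 : tt 0 = inr (Ts 0) := by
        show inl 1 * inr (Ts 0) = inr (Ts 0)
        rw [_root_.map_one, one_mul]
      rw [h3, mem_Kgrp, left_inr, right_inr]
      exact ⟨one_mem _, h2⟩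
    refine ⟨by rw [arr_t0'']; exact h1, ?_⟩
    rw [arr_t0', tp]
    refine mul_mem ?_ h1
    rw [mem_Kgrp, left_inl, right_inl]
    exact ⟨inv_mem hG'.d0, one_mem _⟩
  · intro n a
    have hG' := hG (n + n0)
    have key : ∀ c : Gam, (inl c : E) ^ a ∈ Kgrp m (RR m R (n + n0)) ↔
        c ^ a ∈ RR m R (n + n0) := by
      intro c
      rw [← map_zpow, mem_Kgrp, left_inl, right_inl]
      exact ⟨fun h => h.1, fun h => ⟨h, one_mem _⟩⟩
    refine ⟨?_, ?_, ?_, ?_⟩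
    · show (inl c1 : E) ^ a ∈ _ ↔ _
      rw [key, ← hG'.order_c1 1 a, _root_.map_one, MulAut.one_apply]
    · show (inl c2 : E) ^ a ∈ _ ↔ _
      rw [key, ← hG'.order_c2 1 a, _root_.map_one, MulAut.one_apply]
    · show (inl c3 : E) ^ a ∈ _ ↔ _
      rw [key, ← hG'.order_c3 1 a, _root_.map_one, MulAut.one_apply]
    · rw [arr_c4, key, ← hG'.order_c4 1 a, _root_.map_one, MulAut.one_apply]
  · intro μ e
    have hpos : ∀ x : Fin 3, 0 < (![m, oo (RR m R n0) e.right (par μ).1,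
        ww m (RR m R n0) e.right (par μ).1] x) := by
      intro x
      fin_cases x
      · exact hm
      · exact hopos _ _ _
      · exact hwpos _ _ _
    refine ⟨_, _, hpos (par μ).2.1, hpos (par μ).2.2, fun n i j => ?_⟩
    have h1 := (hG (n + n0)).all_lat μ e i j
    obtain ⟨h2, h3⟩ := hn0 (n + n0) (Nat.le_add_left _ _) e.right (par μ).1
    rw [h2, h3] at h1
    exact h1
  · intro N
    obtain ⟨n, hn⟩ := hub N
    refine ⟨n, ?_⟩
    show N ≤ ((Kgrp m (RR m R (n + n0))).comap inl).index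
    rw [comap_Kgrp]
    refine hn.trans ?_
    have hle : RR m R (n + n0) ≤ R n := inf_le_left.trans (hanti (Nat.le_add_right _ _))
    have hne : (RR m R (n + n0)).index ≠ 0 := (RR_finiteIndex hm hfi (n + n0)).index_ne_zero
    exact Nat.le_of_dvd (Nat.pos_of_ne_zero hne) (Subgroup.index_dvd_of_le hle)

end Vale.Agent.P300.H951
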