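import Vale.Agent.P300.H951.GT4
import Vale.Agent.P300.H708.Tow

/-!
# P300, group block [GT], unconditional
-/

namespace Vale.Agent.P300.H951

theorem alg : ALGProp := by
  have : Fact (Nat.Prime 2) := ⟨Nat.prime_two⟩
  obtain ⟨a, V', R, h1, -, h2, h3, h4, h5, h6, h7, h8, h9⟩ := H708.exists_tower 2
  refine ⟨V', 2 ^ a, 2 ^ a, R, h1, by positivity, by positivity, h2, h3, h4, h5, h6, h7, h8, ?_⟩
  intro N
  obtain ⟨n, hn⟩ := h9 N
  exact ⟨n, hn.le⟩

/-- **Group block.** -/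
theorem gt : GTProp := gt_of_alg alg

end Vale.Agent.P300.H951
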