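import Vale.Agent.P300.H951.GT5
import Vale.Agent.P300.H708.Std

/-!
# P300, group block [GT], in the names of `H708/Sets`, `H708/Std`
-/

namespace Vale.Agent.P300.H951

open SemidirectProduct

theorem arr_eq : arr = H708.arrE := rfl

/-- **Group block, output for the geometry**: all fifteen crossings (`std`) and the sixteen charts of
the node table (`wa`, `wb`). -/
theorem gt_out : ∃ (m : ℕ) (K : ℕ → Subgroup E), 0 < m ∧ (∀ n, (K n).FiniteIndex) ∧ Antitone K ∧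
    (∀ n, ∀ γ : Gam, ∀ k ∈ K n, inl γ * k * (inl γ)⁻¹ ∈ K n) ∧
    (∀ n, H708.arrE.t0'' ∈ K n ∧ H708.arrE.t0' ∈ K n) ∧
    (∀ n, ∀ a : ℤ, (H708.arrE.c1 ^ a ∈ K n ↔ (m : ℤ) ∣ a) ∧
      (H708.arrE.c2 ^ a ∈ K n ↔ (m : ℤ) ∣ a) ∧
      (H708.arrE.c3 ^ a ∈ K n ↔ (m : ℤ) ∣ a) ∧ (H708.arrE.c4 ^ a ∈ K n ↔ (m : ℤ) ∣ a)) ∧
    (∀ μ : Fin 15, H708.Lat (H708.arrE.std μ).1 (H708.arrE.std μ).2 K) ∧
    (∀ ν : Fin 16, H708.Lat (H708.arrE.wa ν) (H708.arrE.wb ν) K) ∧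
    (∀ N, ∃ n, N ≤ ((K n).comap inl).index) := by
  obtain ⟨m, K, h1, h2, h3, h4, h5, h6, h7, h8⟩ := gt
  have h7' : ∀ μ : Fin 15, H708.Lat (H708.arrE.std μ).1 (H708.arrE.std μ).2 K := fun μ e =>
    h7 μ e
  exact ⟨m, K, h1, h2, h3, h4, h5, h6, h7', fun ν =>
    (h7' (Tor.Arr.wmu ν)).of_conjPair (H708.arrE.std_comm _) (H708.arrE.conj_table ν), h8⟩

end Vale.Agent.P300.H951
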