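import Mathlib

/-! P300, note of helper951: the image of `G_f` in `E'/N` is infinite because the kernel is central. -/

namespace Vale.Agent.P300.H951

open Subgroup
open scoped commutatorElement

/-- If the centre has finite index, the commutator set is finite. -/
theorem finite_commutatorSet {F : Type*} [Group F] [(center F).FiniteIndex] :
    Finite (commutatorSet F) := by
  classical
  have hfin : Finite (F ⧸ center F) := inferInstance
  let φ : (F ⧸ center F) × (F ⧸ center F) → F := fun q => ⁅q.1.out, q.2.out⁆
  have hsub : commutatorSet F ⊆ Set.range φ := by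
    rintro x ⟨g, h, rfl⟩
    refine ⟨((g : F ⧸ center F), (h : F ⧸ center F)), ?_⟩
    obtain ⟨a, ha⟩ := QuotientGroup.mk_out_eq_mul (center F) g
    obtain ⟨b, hb⟩ := QuotientGroup.mk_out_eq_mul (center F) h
    have ha' : ∀ y : F, (a : F) * y = y * a := fun y => ((mem_center_iff.1 a.2) y).symm
    have hb' : ∀ y : F, (b : F) * y = y * b := fun y => ((mem_center_iff.1 b.2) y).symm
    show ⁅(QuotientGroup.mk g : F ⧸ center F).out, (QuotientGroup.mk h : F ⧸ center F).out⁆ = ⁅g, h⁆
    rw [ha, hb, commutatorElement_def, commutatorElement_def]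
    have ha'' : ∀ y : F, (a : F)⁻¹ * y = y * (a : F)⁻¹ := fun y => by
      have := (inv_mem a.2 : (a : F)⁻¹ ∈ center F)
      exact ((mem_center_iff.1 this) y).symm
    calc g * a * (h * b) * (g * a)⁻¹ * (h * b)⁻¹
        = g * (a * (h * b)) * ((a : F)⁻¹ * g⁻¹) * ((b : F)⁻¹ * h⁻¹) := by group
      _ = g * ((h * b) * a) * ((a : F)⁻¹ * g⁻¹) * ((b : F)⁻¹ * h⁻¹) := by rw [ha' (h * b)]
      _ = g * h * ((b : F) * g⁻¹) * ((b : F)⁻¹ * h⁻¹) := by group
      _ = g * h * (g⁻¹ * b) * ((b : F)⁻¹ * h⁻¹) := by rw [hb' g⁻¹]
      _ = g * h * g⁻¹ * h⁻¹ := by group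
  exact (Set.finite_range φ).subset hsub |>.to_subtype

/-- A group generated by finitely many elements of finite order, with centre of finite index,
is finite. -/
theorem finite_of_center {F : Type*} [Group F] [(center F).FiniteIndex]
    (S : Set F) (hS : S.Finite) (hgen : closure S = ⊤) (hfin : ∀ s ∈ S, IsOfFinOrder s) :
    Finite F := by
  classical
  have h1 : Finite (commutatorSet F) := finite_commutatorSet
  have h2 : Finite (commutator F) := inferInstance
  -- the abelianisation is finite
  have hsurj : Function.Surjective (Abelianization.of : F →* Abelianization F) :=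
    QuotientGroup.mk_surjective
  have hfg : Group.FG (Abelianization F) := by
    have hF : Group.FG F := ⟨⟨hS.toFinset, by simpa using hgen⟩⟩
    exact Group.fg_of_surjective hsurj
  have htor : IsMulTorsion (Abelianization F) := by
    intro x
    obtain ⟨f, rfl⟩ := hsurj x
    have hf : f ∈ closure S := by rw [hgen]; trivial
    induction hf using Subgroup.closure_induction with
    | mem s hs => exact MonoidHom.isOfFinOrder Abelianization.of (hfin s hs)
    | one => simp
    | mul x y _ _ hx hy => rw [map_mul]; exact hx.mul hy
    | inv x _ hx => rw [map_inv]; exact hx.inv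
  have h3 : Finite (Abelianization F) := CommGroup.finite_of_fg_isMulTorsion _ htor
  have h4 : Finite (F ⧸ commutator F) := h3
  have h5 : (commutator F).FiniteIndex := Subgroup.finiteIndex_of_finite_quotient
  exact Finite.of_subgroup_quotient (commutator F)

/-- **The image is infinite.** -/
theorem infinite_range {F Q : Type*} [Group F] [Group Q] [Infinite F] (p : F →* Q)
    (hp : p.ker ≤ center F)
    (S : Set F) (hS : S.Finite) (hgen : closure S = ⊤) (hfin : ∀ s ∈ S, IsOfFinOrder s) :
    Infinite p.range := by
  by_contra hcon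
  rw [not_infinite_iff_finite] at hcon
  have h1 : p.ker.FiniteIndex := by
    have : Finite (F ⧸ p.ker) := Finite.of_equiv _ (QuotientGroup.quotientKerEquivRange p).symm.toEquiv
    exact Subgroup.finiteIndex_of_finite_quotient
  have h2 : (center F).FiniteIndex := Subgroup.finiteIndex_of_le hp
  have h3 : Finite F := finite_of_center S hS hgen hfin
  exact not_finite F

/-- Subgroup form: `F` and `Z` are subgroups of `G`, `Z` normal, `Z` centralises `F`, `F` infinite
and generated by finitely many elements of finite order; then the image of `F` in `G/Z`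
is infinite. -/
theorem infinite_image {G : Type*} [Group G] (F Z : Subgroup G) [Z.Normal]
    (hc : ∀ z ∈ Z, ∀ f ∈ F, z * f = f * z) (hF : Infinite F)
    (S : Set G) (hS : S.Finite) (hgen : closure S = F) (hfin : ∀ s ∈ S, IsOfFinOrder s) :
    Infinite (F.map (QuotientGroup.mk' Z)) := by
  classical
  let p : F →* G ⧸ Z := (QuotientGroup.mk' Z).comp F.subtype
  have hp : p.ker ≤ center F := by
    intro f hf
    have hfZ : (f : G) ∈ Z := by
      have : (QuotientGroup.mk' Z) (f : G) = 1 := hf
      simpa using this
    rw [mem_center_iff]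
    intro g
    ext
    exact (hc f hfZ g g.2).symm
  have hSF : S ⊆ F := by rw [← hgen]; exact subset_closure
  let S' : Set F := (fun x : F => (x : G)) ⁻¹' S
  have hS' : S'.Finite := hS.preimage (Subtype.val_injective.injOn)
  have hgen' : closure S' = ⊤ := by
    apply Subgroup.map_injective F.subtype_injective
    rw [MonoidHom.map_closure]
    have : (F.subtype '' S') = S := by
      ext x
      constructor
      · rintro ⟨y, hy, rfl⟩; exact hy
      · intro hx; exact ⟨⟨x, hSF hx⟩, hx, rfl⟩
    rw [this, hgen]
    ext x; constructor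
    · intro hx; exact ⟨⟨x, hx⟩, trivial, rfl⟩
    · rintro ⟨y, _, rfl⟩; exact y.2
  have hfin' : ∀ s ∈ S', IsOfFinOrder s := by
    intro s hs
    have := hfin (s : G) hs
    rwa [← Submonoid.isOfFinOrder_coe (H := F.toSubmonoid)] 
  have h := infinite_range p hp S' hS' hgen' hfin'
  have hr : p.range = F.map (QuotientGroup.mk' Z) := by
    rw [MonoidHom.range_comp, Subgroup.range_subtype]
  rwa [hr] at h

end Vale.Agent.P300.H951
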